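import Crest.Agent.R307.Base2

set_option autoImplicit false

namespace Crest.Agent.R307

open Real Set Crest.CubeNoise Crest.Agent.H28

/-- Jensen's inequality on the cube -/
lemma jensen_cube {n : ℕ} {F : ℝ → ℝ} (hF : ConcaveOn ℝ (Icc 0 1) F) (g : (Fin n → Bool) → ℝ)
    (hg : ∀ x, g x ∈ Icc (0 : ℝ) 1) :
    cubeAverage (fun x => F (g x)) ≤ F (cubeAverage g) := by
  have hc : (Finset.univ : Finset (Fin n → Bool)).card = 2 ^ n := by
    rw [Finset.card_univ, Fintype.card_fun, Fintype.card_bool, Fintype.card_fin]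
  have h2 : (0 : ℝ) < 2 ^ n := by positivity
  have h := hF.le_map_sum (t := Finset.univ) (w := fun _ => (1 : ℝ) / 2 ^ n) (p := g)
    (fun _ _ => by positivity)
    (by rw [Finset.sum_const, hc, nsmul_eq_mul]; push_cast; field_simp)
    (fun x _ => hg x)
  unfold cubeAverage
  simp only [smul_eq_mul] at h
  rw [← Finset.mul_sum, ← Finset.mul_sum] at h
  have e1 : (∑ x, F (g x)) / 2 ^ n = 1 / 2 ^ n * ∑ x, F (g x) := by ring
  have e2 : (∑ x, g x) / 2 ^ n = 1 / 2 ^ n * ∑ x, g x := by ring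
  rw [e1, e2]; exact h

/-- one-sided functional whose symmetrisation is a concave increasing function of `sig` -/
theorem target_of_concave {ρ : ℝ} (hρ : |ρ| ≤ 1) (φ F : ℝ → ℝ)
    (hφ : ∀ u : ℝ, 0 ≤ u → u ≤ 1 → φ u + φ (1 - u) ≤ F (sig u))
    (hF : ConcaveOn ℝ (Icc 0 1) F) (hmono : StrictMonoOn F (Icc 0 1)) (b : ℝ → ℝ)
    (hb : ∀ u : ℝ, 0 ≤ u → u ≤ 1 → 0 < sig u - 1 + √(1 - ρ ^ 2) →
      F (sig u - 1 + √(1 - ρ ^ 2)) ≤ b u + b (1 - u))
    (h : ∀ (n : ℕ) (f : (Fin n → Bool) → Bool), b (meas f) ≤ EE ρ φ f) : Target ρ := by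
  intro n f
  have hW0 : 0 ≤ EE ρ sig f := by
    unfold EE
    have := cubeAverage_mono (n := n) (f := fun _ => (0:ℝ)) (g := fun x => sig (UU ρ f x))
      (fun x => sig_nonneg _)
    rwa [cubeAverage_const] at this
  have hW1 : EE ρ sig f ≤ 1 := by
    unfold EE
    have := cubeAverage_mono (n := n) (f := fun x => sig (UU ρ f x)) (g := fun _ => (1:ℝ))
      (fun x => sig_le_one _)
    rwa [cubeAverage_const] at this
  by_cases hs : 0 < sig (meas f) - 1 + √(1 - ρ ^ 2)
  · have h1 := h n f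
    have h2 := h n (compl f)
    rw [meas_compl, EE_compl] at h2
    have h3 := hb (meas f) (meas_nonneg f) (meas_le_one f) hs
    have h4 : EE ρ φ f + EE ρ (fun u => φ (1 - u)) f ≤ F (EE ρ sig f) := by
      refine le_trans ?_ (jensen_cube hF (fun x => sig (UU ρ f x))
        (fun x => ⟨sig_nonneg _, sig_le_one _⟩))
      unfold EE
      rw [← cubeAverage_add]
      exact cubeAverage_mono fun x => hφ _ (UU_nonneg hρ f x) (UU_le_one hρ f x)
    have h5 : √(1 - ρ ^ 2) ≤ 1 := by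
      rw [Real.sqrt_le_one]; nlinarith [sq_nonneg ρ]
    have h6 := sig_le_one (meas f)
    by_contra hcon
    push Not at hcon
    have := hmono ⟨hW0, hW1⟩ ⟨hs.le, by linarith⟩ hcon
    linarith
  · push Not at hs; linarith

end Crest.Agent.R307
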