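import Crest.Agent.R307.Closure

set_option autoImplicit false

namespace Crest.Agent.R307

open Real Set Crest.CubeNoise Crest.Agent.H28

lemma UU_zero_dim (ρ : ℝ) (g : (Fin 0 → Bool) → Bool) (x : Fin 0 → Bool) :
    UU ρ g x = meas g := by
  have h := cubeAverage_zero (UU ρ g) x
  rw [← h, cubeAverage_UU]

lemma EE_two (ρ : ℝ) (φ : ℝ → ℝ) (f : (Fin 2 → Bool) → Bool) :
    ∃ a b c d : ℝ, (a = 0 ∨ a = 1) ∧ (b = 0 ∨ b = 1) ∧ (c = 0 ∨ c = 1) ∧ (d = 0 ∨ d = 1) ∧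
      meas f = (a + b + c + d) / 4 ∧
      EE ρ φ f =
        ((φ ((1 + ρ) / 2 * ((1 + ρ) / 2 * a + (1 - ρ) / 2 * b) +
              (1 - ρ) / 2 * ((1 + ρ) / 2 * c + (1 - ρ) / 2 * d)) +
          φ ((1 - ρ) / 2 * ((1 + ρ) / 2 * a + (1 - ρ) / 2 * b) +
              (1 + ρ) / 2 * ((1 + ρ) / 2 * c + (1 - ρ) / 2 * d))) / 2 +
         (φ ((1 + ρ) / 2 * ((1 + ρ) / 2 * b + (1 - ρ) / 2 * a) +
              (1 - ρ) / 2 * ((1 + ρ) / 2 * d + (1 - ρ) / 2 * c)) +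
          φ ((1 - ρ) / 2 * ((1 + ρ) / 2 * b + (1 - ρ) / 2 * a) +
              (1 + ρ) / 2 * ((1 + ρ) / 2 * d + (1 - ρ) / 2 * c))) / 2) / 2 := by
  refine ⟨meas (sect (sect f 0 true) 0 true), meas (sect (sect f 0 true) 0 false),
    meas (sect (sect f 0 false) 0 true), meas (sect (sect f 0 false) 0 false),
    meas_zero_dim _, meas_zero_dim _, meas_zero_dim _, meas_zero_dim _, ?_, ?_⟩
  · rw [meas_split f 0, meas_split (sect f 0 true) 0, meas_split (sect f 0 false) 0]; ring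
  · rw [EE_split ρ φ f 0, cubeAverage_split _ (0 : Fin 1)]
    unfold sect
    simp only [UU_split, Bool.not_true, Bool.not_false, UU_zero_dim]
    rw [cubeAverage_const, cubeAverage_const]
    rfl

/-- base case `n ≤ 2` -/
lemma base_le_two {ρ : ℝ} (φ b : ℝ → ℝ) (h0 : b 0 ≤ φ 0) (h1 : b 1 ≤ φ 1)
    (h2 : b (1 / 2) ≤ (φ ((1 + ρ) / 2) + φ ((1 - ρ) / 2)) / 2)
    (h3 : b (1 / 2) ≤ (φ ((1 + ρ ^ 2) / 2) + φ ((1 - ρ ^ 2) / 2)) / 2)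
    (h4 : b (1 / 4) ≤ (φ (((1 + ρ) / 2) ^ 2) + 2 * φ ((1 - ρ ^ 2) / 4) +
      φ (((1 - ρ) / 2) ^ 2)) / 4)
    (h5 : b (3 / 4) ≤ (φ (1 - ((1 + ρ) / 2) ^ 2) + 2 * φ (1 - (1 - ρ ^ 2) / 4) +
      φ (1 - ((1 - ρ) / 2) ^ 2)) / 4) :
    ∀ n ≤ 2, ∀ f : (Fin n → Bool) → Bool, b (meas f) ≤ EE ρ φ f := by
  intro n hn f
  by_cases hn1 : n ≤ 1
  · exact base_le_one φ b h0 h1 h2 n hn1 f
  · obtain rfl : n = 2 := by omega
    obtain ⟨a, b', c, d, ha, hb, hc, hd, hm, hE⟩ := EE_two ρ φ f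
    rw [hE, hm]
    have z1 : (0 + 0 + 0 + 0 : ℝ) / 4 = 0 := by norm_num
    rcases ha with rfl | rfl <;> rcases hb with rfl | rfl <;> rcases hc with rfl | rfl <;>
      rcases hd with rfl | rfl
    all_goals norm_num
    all_goals ring_nf
    all_goals ring_nf at h0 h1 h2 h3 h4 h5
    all_goals linarith

end Crest.Agent.R307
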