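import Crest.Agent.R307.Reduce

set_option autoImplicit false

namespace Crest.Agent.R307

open Real Set Crest.CubeNoise Crest.Agent.H28

/-- one step of the noise for a functional -/
noncomputable def MM (ρ : ℝ) (φ : ℝ → ℝ) (u1 u0 : ℝ) : ℝ :=
  (φ ((1 + ρ) / 2 * u1 + (1 - ρ) / 2 * u0) + φ ((1 - ρ) / 2 * u1 + (1 + ρ) / 2 * u0)) / 2

lemma MM_symm (ρ : ℝ) (φ : ℝ → ℝ) (u1 u0 : ℝ) : MM ρ φ u1 u0 = MM ρ φ u0 u1 := by
  unfold MM
  rw [add_comm (φ _) (φ _)]
  congr 2 <;> congr 1 <;> ring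

/-- certificate closure of a one-sided bound `b` for the functional `φ`, for splits with
`(N0 + 1) (x - y)² ≤ 4 z (1 - z)`, `z = (x + y) / 2` -/
def Closure (ρ : ℝ) (N0 : ℕ) (φ b : ℝ → ℝ) : Prop :=
  ∀ x y : ℝ, 0 ≤ y → y ≤ x → x ≤ 1 →
    (N0 + 1 : ℝ) * (x - y) ^ 2 ≤ 4 * ((x + y) / 2) * (1 - (x + y) / 2) →
    ∃ l1 l0 e1 e0 k : ℝ, 0 ≤ l1 ∧ 0 ≤ l0 ∧
      (∀ u1 u0 : ℝ, 0 ≤ u1 → u1 ≤ 1 → 0 ≤ u0 → u0 ≤ 1 →
        l1 * φ u1 + l0 * φ u0 + (e1 * u1 + e0 * u0) + k ≤ MM ρ φ u1 u0) ∧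
      b ((x + y) / 2) ≤ l1 * b x + l0 * b y + (e1 * x + e0 * y) + k

theorem bound_of_closure {ρ : ℝ} (hρ : |ρ| ≤ 1) (N0 : ℕ) (φ b : ℝ → ℝ)
    (base : ∀ n ≤ N0, ∀ f : (Fin n → Bool) → Bool, b (meas f) ≤ EE ρ φ f)
    (hcl : Closure ρ N0 φ b) :
    ∀ n (f : (Fin n → Bool) → Bool), b (meas f) ≤ EE ρ φ f := by
  refine induct_small_split N0 (fun n f => b (meas f) ≤ EE ρ φ f) base ?_
  intro n _ f i hd h1 h0
  have hz : meas f = (meas (sect f i true) + meas (sect f i false)) / 2 := meas_split f i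
  rcases le_total (meas (sect f i false)) (meas (sect f i true)) with hle | hle
  · obtain ⟨l1, l0, e1, e0, k, hl1, hl0, hc, hb⟩ := hcl (meas (sect f i true))
      (meas (sect f i false)) (meas_nonneg _) hle (meas_le_one _) (by rw [← hz]; exact hd)
    rw [hz]
    refine le_trans hb ?_
    have hE := EE_cert hρ φ (fun _ => 0) f i (l1 := l1) (l0 := l0) (m1 := 0) (m0 := 0)
      (e1 := e1) (e0 := e0) (k := k) (by
        intro u1 u0 a1 a2 a3 a4
        have := hc u1 u0 a1 a2 a3 a4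
        unfold MM at this
        linarith)
    have g1 := mul_le_mul_of_nonneg_left h1 hl1
    have g0 := mul_le_mul_of_nonneg_left h0 hl0
    linarith
  · obtain ⟨l1, l0, e1, e0, k, hl1, hl0, hc, hb⟩ := hcl (meas (sect f i false))
      (meas (sect f i true)) (meas_nonneg _) hle (meas_le_one _) (by
        rw [add_comm (meas (sect f i false)) (meas (sect f i true)), ← hz]
        have : (meas (sect f i false) - meas (sect f i true)) ^ 2 =
          (meas (sect f i true) - meas (sect f i false)) ^ 2 := by ring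
        rw [this]; exact hd)
    rw [hz, add_comm (meas (sect f i true))]
    refine le_trans hb ?_
    have hE := EE_cert hρ φ (fun _ => 0) f i (l1 := l0) (l0 := l1) (m1 := 0) (m0 := 0)
      (e1 := e0) (e0 := e1) (k := k) (by
        intro u1 u0 a1 a2 a3 a4
        have := hc u0 u1 a3 a4 a1 a2
        rw [MM_symm] at this
        unfold MM at this
        linarith)
    have g1 := mul_le_mul_of_nonneg_left h1 hl0
    have g0 := mul_le_mul_of_nonneg_left h0 hl1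
    linarith

/-! ### base cases -/

lemma EE_zero_dim (ρ : ℝ) (φ : ℝ → ℝ) (f : (Fin 0 → Bool) → Bool) :
    EE ρ φ f = φ (meas f) := by
  have e : ∀ x : Fin 0 → Bool, UU ρ f x = meas f := by
    intro x
    have h := cubeAverage_zero (UU ρ f) x
    rw [← h, cubeAverage_UU]
  unfold EE
  simp only [e]
  exact cubeAverage_const _

lemma meas_zero_dim (f : (Fin 0 → Bool) → Bool) : meas f = 0 ∨ meas f = 1 := by
  unfold meas
  rw [cubeAverage_zero (ind f) (fun i => i.elim0)]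
  unfold ind
  split_ifs <;> simp

lemma base_le_one {ρ : ℝ} (φ b : ℝ → ℝ) (h0 : b 0 ≤ φ 0) (h1 : b 1 ≤ φ 1)
    (h2 : b (1 / 2) ≤ (φ ((1 + ρ) / 2) + φ ((1 - ρ) / 2)) / 2) :
    ∀ n ≤ 1, ∀ f : (Fin n → Bool) → Bool, b (meas f) ≤ EE ρ φ f := by
  intro n hn f
  interval_cases n
  · rw [EE_zero_dim]
    rcases meas_zero_dim f with h | h <;> rw [h] <;> assumption
  · rw [EE_split ρ φ f 0, meas_split f 0]
    have e : ∀ (g : (Fin 0 → Bool) → Bool) (x : Fin 0 → Bool), UU ρ g x = meas g := by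
      intro g x
      have h := cubeAverage_zero (UU ρ g) x
      rw [← h, cubeAverage_UU]
    simp only [e]
    rw [cubeAverage_const]
    rcases meas_zero_dim (sect f 0 true) with h | h <;>
      rcases meas_zero_dim (sect f 0 false) with h' | h' <;> rw [h, h']
    · simpa using h0
    · have e1 : (0 + 1 : ℝ) / 2 = 1 / 2 := by norm_num
      rw [e1]; simp only [mul_zero, mul_one, zero_add]; linarith
    · have e1 : (1 + 0 : ℝ) / 2 = 1 / 2 := by norm_num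
      rw [e1]; simp only [mul_zero, mul_one, add_zero]; linarith
    · have e1 : (1 + 1 : ℝ) / 2 = 1 := by norm_num
      have e2 : (1 + ρ) / 2 * 1 + (1 - ρ) / 2 * 1 = 1 := by ring
      have e3 : (1 - ρ) / 2 * 1 + (1 + ρ) / 2 * 1 = 1 := by ring
      rw [e1, e2, e3]; linarith

/-- `√`-functional, base `n ≤ 1`, splits with `2 (x - y)² ≤ 4 z (1 - z)` -/
theorem target_of_sqrt_closure {ρ : ℝ} (h0ρ : 0 ≤ ρ) (h1ρ : ρ ≤ 1) (r : ℝ → ℝ)
    (hr0 : ∀ u, 0 ≤ u → u ≤ 1 → 0 ≤ r u) (hz : r 0 ≤ 0) (ho : r 1 ≤ 1)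
    (hh : r (1 / 2) ≤ (√((1 + ρ) / 2) + √((1 - ρ) / 2)) / 2)
    (hb : ∀ u : ℝ, 0 ≤ u → u ≤ 1 → sig u + √(1 - ρ ^ 2) ≤ (r u + r (1 - u)) ^ 2)
    (hcl : Closure ρ 1 Real.sqrt r) : Target ρ := by
  have hρ : |ρ| ≤ 1 := abs_le.2 ⟨by linarith, h1ρ⟩
  refine target_of_sqrt hρ r hr0 hb ?_
  exact bound_of_closure hρ 1 Real.sqrt r
    (base_le_one Real.sqrt r (by simpa using hz) (by simpa using ho) hh) hcl

end Crest.Agent.R307
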