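import Crest.Agent.H28.Noise

set_option autoImplicit false

namespace Crest.Agent.R307

open Real Set Crest.CubeNoise Crest.Agent.H28

/-! ### splitting along an arbitrary coordinate -/

/-- the section of `g` at `x i = b` -/
def sect {α : Type} {n : ℕ} (g : (Fin (n + 1) → Bool) → α) (i : Fin (n + 1)) (b : Bool) :
    (Fin n → Bool) → α := fun x => g (i.insertNth b x)

lemma cubeAverage_split {n : ℕ} (g : (Fin (n + 1) → Bool) → ℝ) (i : Fin (n + 1)) :
    cubeAverage g = (cubeAverage (sect g i true) + cubeAverage (sect g i false)) / 2 := by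
  unfold cubeAverage sect
  have e : ∑ x, g x = ∑ p : Bool × (Fin n → Bool), g (i.insertNth p.1 p.2) :=
    (Fintype.sum_equiv (Fin.insertNthEquiv (fun _ => Bool) i) _ _ (fun p => rfl)).symm
  rw [e, Fintype.sum_prod_type, Fintype.sum_bool]
  rw [pow_succ]
  field_simp

lemma ker_split {n : ℕ} (ρ : ℝ) (i : Fin (n + 1)) (a b : Bool) (x y : Fin n → Bool) :
    ker ρ (i.insertNth a x : Fin (n + 1) → Bool) (i.insertNth b y) =
      (1 + ρ * spin a * spin b) / 2 * ker ρ x y := by
  unfold ker
  rw [Fin.prod_univ_succAbove _ i]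
  simp

lemma noise_split {n : ℕ} (ρ : ℝ) (u : (Fin (n + 1) → Bool) → ℝ) (i : Fin (n + 1)) (a : Bool)
    (x : Fin n → Bool) :
    noise ρ u (i.insertNth a x) = (1 + ρ) / 2 * noise ρ (sect u i a) x +
      (1 - ρ) / 2 * noise ρ (sect u i (!a)) x := by
  simp only [noise_eq]
  have e : ∑ y, ker ρ (i.insertNth a x : Fin (n + 1) → Bool) y * u y =
      ∑ p : Bool × (Fin n → Bool),
        ker ρ (i.insertNth a x : Fin (n + 1) → Bool) (i.insertNth p.1 p.2) *
          u (i.insertNth p.1 p.2) :=
    (Fintype.sum_equiv (Fin.insertNthEquiv (fun _ => Bool) i) _ _ (fun p => rfl)).symm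
  rw [e, Fintype.sum_prod_type, Fintype.sum_bool]
  simp only [ker_split]
  unfold sect
  cases a <;> simp only [Bool.not_true, Bool.not_false, spin, if_true, Bool.false_eq_true,
    if_false, Finset.mul_sum]
  · rw [add_comm]
    congr 1 <;> apply Finset.sum_congr rfl <;> intro y _ <;> ring
  · congr 1 <;> apply Finset.sum_congr rfl <;> intro y _ <;> ring

/-! ### level one Bessel inequality -/

lemma cubeAverage_spin {n : ℕ} (i : Fin n) : cubeAverage (fun x : Fin n → Bool => spin (x i)) = 0 := by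
  obtain ⟨m, rfl⟩ : ∃ m, n = m + 1 := ⟨n - 1, by have := i.pos; omega⟩
  rw [cubeAverage_split _ i]
  unfold sect
  simp [spin, cubeAverage_const]

lemma cubeAverage_spin_mul {n : ℕ} (i j : Fin n) (h : i ≠ j) :
    cubeAverage (fun x : Fin n → Bool => spin (x i) * spin (x j)) = 0 := by
  obtain ⟨m, rfl⟩ : ∃ m, n = m + 1 := ⟨n - 1, by have := i.pos; omega⟩
  obtain ⟨k, rfl⟩ : ∃ k, j = i.succAbove k := by
    rcases Fin.exists_succAbove_eq (Ne.symm h) with ⟨k, hk⟩
    exact ⟨k, hk.symm⟩
  rw [cubeAverage_split _ i]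
  unfold sect
  simp only [Fin.insertNth_apply_same, Fin.insertNth_apply_succAbove]
  have h1 : cubeAverage (fun x : Fin m → Bool => spin true * spin (x k)) = 0 := by
    rw [cubeAverage_mul_left, cubeAverage_spin, mul_zero]
  have h2 : cubeAverage (fun x : Fin m → Bool => spin false * spin (x k)) = 0 := by
    rw [cubeAverage_mul_left, cubeAverage_spin, mul_zero]
  rw [h1, h2]; norm_num

lemma cubeAverage_sum {n : ℕ} {ι : Type} (s : Finset ι) (F : ι → (Fin n → Bool) → ℝ) :
    cubeAverage (fun x => ∑ i ∈ s, F i x) = ∑ i ∈ s, cubeAverage (F i) := by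
  unfold cubeAverage
  rw [Finset.sum_comm, Finset.sum_div]

/-- level one coefficient -/
noncomputable def lev {n : ℕ} (g : (Fin n → Bool) → ℝ) (i : Fin n) : ℝ :=
  cubeAverage (fun x => g x * spin (x i))

lemma lev_split {n : ℕ} (g : (Fin (n + 1) → Bool) → ℝ) (i : Fin (n + 1)) :
    lev g i = (cubeAverage (sect g i true) - cubeAverage (sect g i false)) / 2 := by
  unfold lev
  rw [cubeAverage_split _ i]
  have e1 : sect (fun x => g x * spin (x i)) i true = sect g i true := by
    funext x; simp [sect, spin]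
  have e2 : sect (fun x => g x * spin (x i)) i false = fun x => (-1) * sect g i false x := by
    funext x; simp [sect, spin]
  rw [e1, e2, cubeAverage_mul_left]
  ring

lemma bessel {n : ℕ} (g : (Fin n → Bool) → ℝ) :
    ∑ i, lev g i ^ 2 ≤ cubeAverage (fun x => g x ^ 2) - cubeAverage g ^ 2 := by
  set m := cubeAverage g with hm
  set S : (Fin n → Bool) → ℝ := fun x => ∑ i, lev g i * spin (x i) with hS
  have h0 : 0 ≤ cubeAverage (fun x => (g x - m - S x) ^ 2) := by
    have := cubeAverage_mono (n := n) (f := fun _ => (0 : ℝ)) (g := fun x => (g x - m - S x) ^ 2)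
      (fun x => by positivity)
    rwa [cubeAverage_const] at this
  have hSS : cubeAverage (fun x => S x * S x) = ∑ i, lev g i ^ 2 := by
    have e : (fun x => S x * S x) = fun x : Fin n → Bool => ∑ i, ∑ j,
        (lev g i * lev g j) * (spin (x i) * spin (x j)) := by
      funext x
      simp only [hS]
      rw [Finset.sum_mul_sum]
      apply Finset.sum_congr rfl; intro i _
      apply Finset.sum_congr rfl; intro j _
      ring
    rw [e, cubeAverage_sum]
    apply Finset.sum_congr rfl
    intro i _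
    rw [cubeAverage_sum, Finset.sum_eq_single i]
    · rw [cubeAverage_mul_left]
      have : (fun x : Fin n → Bool => spin (x i) * spin (x i)) = fun _ => 1 := by
        funext x; exact spin_mul_self _
      rw [this, cubeAverage_const]; ring
    · intro j _ hj
      rw [cubeAverage_mul_left, cubeAverage_spin_mul i j (Ne.symm hj), mul_zero]
    · intro h; exact absurd (Finset.mem_univ i) h
  have hgS : cubeAverage (fun x => g x * S x) = ∑ i, lev g i ^ 2 := by
    have e : (fun x => g x * S x) = fun x : Fin n → Bool => ∑ i,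
        lev g i * (g x * spin (x i)) := by
      funext x
      simp only [hS]
      rw [Finset.mul_sum]
      apply Finset.sum_congr rfl; intro i _
      ring
    rw [e, cubeAverage_sum]
    apply Finset.sum_congr rfl
    intro i _
    rw [cubeAverage_mul_left]
    unfold lev
    ring
  have hS0 : cubeAverage S = 0 := by
    simp only [hS]
    rw [cubeAverage_sum]
    apply Finset.sum_eq_zero
    intro i _
    rw [cubeAverage_mul_left, cubeAverage_spin, mul_zero]
  have e : (fun x => (g x - m - S x) ^ 2) = fun x => (g x ^ 2 + S x * S x) +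
      (((-2 * m) * g x + (2 * m) * S x) + ((-2) * (g x * S x) + m ^ 2)) := by
    funext x; ring
  rw [e, cubeAverage_add, cubeAverage_add, cubeAverage_add, cubeAverage_add, cubeAverage_add,
    cubeAverage_mul_left, cubeAverage_mul_left, cubeAverage_mul_left, hSS, hgS, hS0, ← hm,
    cubeAverage_const] at h0
  nlinarith [h0]

/-! ### indicator functions -/

/-- the indicator of `f` -/
def ind {n : ℕ} (f : (Fin n → Bool) → Bool) (x : Fin n → Bool) : ℝ := if f x then 1 else 0

/-- the measure of `f` -/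
noncomputable def meas {n : ℕ} (f : (Fin n → Bool) → Bool) : ℝ := cubeAverage (ind f)

lemma ind_sect {n : ℕ} (f : (Fin (n + 1) → Bool) → Bool) (i : Fin (n + 1)) (b : Bool) :
    sect (ind f) i b = ind (sect f i b) := rfl

lemma meas_split {n : ℕ} (f : (Fin (n + 1) → Bool) → Bool) (i : Fin (n + 1)) :
    meas f = (meas (sect f i true) + meas (sect f i false)) / 2 := by
  unfold meas; rw [cubeAverage_split _ i]; rfl

lemma ind_nonneg {n : ℕ} (f : (Fin n → Bool) → Bool) (x : Fin n → Bool) : 0 ≤ ind f x := by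
  unfold ind; split_ifs <;> norm_num

lemma ind_le_one {n : ℕ} (f : (Fin n → Bool) → Bool) (x : Fin n → Bool) : ind f x ≤ 1 := by
  unfold ind; split_ifs <;> norm_num

lemma meas_nonneg {n : ℕ} (f : (Fin n → Bool) → Bool) : 0 ≤ meas f := by
  have := cubeAverage_mono (ind_nonneg f)
  rwa [cubeAverage_const] at this

lemma meas_le_one {n : ℕ} (f : (Fin n → Bool) → Bool) : meas f ≤ 1 := by
  have := cubeAverage_mono (ind_le_one f)
  rwa [cubeAverage_const] at this

lemma exists_small_split {n : ℕ} (f : (Fin (n + 1) → Bool) → Bool) :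
    ∃ i : Fin (n + 1), (n + 1) * (meas (sect f i true) - meas (sect f i false)) ^ 2 ≤
      4 * meas f * (1 - meas f) := by
  by_contra hcon
  push Not at hcon
  have hb := bessel (ind f)
  have hsq : cubeAverage (fun x => ind f x ^ 2) = meas f := by
    unfold meas
    congr 1
    funext x
    unfold ind; split_ifs <;> norm_num
  rw [hsq] at hb
  have h1 : ∀ i : Fin (n + 1), (meas f * (1 - meas f)) / (n + 1) < lev (ind f) i ^ 2 := by
    intro i
    have := hcon i
    rw [lev_split, ind_sect, ind_sect, div_lt_iff₀ (by positivity)]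
    unfold meas at this ⊢
    nlinarith [this]
  have h2 : ∑ _i : Fin (n + 1), (meas f * (1 - meas f)) / (n + 1) < ∑ i, lev (ind f) i ^ 2 :=
    Finset.sum_lt_sum_of_nonempty Finset.univ_nonempty (fun i _ => h1 i)
  rw [Finset.sum_const, Finset.card_univ, Fintype.card_fin, nsmul_eq_mul] at h2
  have h3 : ((n + 1 : ℕ) : ℝ) * ((meas f * (1 - meas f)) / (n + 1)) = meas f * (1 - meas f) := by
    push_cast
    field_simp
  rw [h3] at h2
  have h4 : cubeAverage (ind f) = meas f := rfl
  rw [h4] at hb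
  nlinarith [hb, h2]

/-- smoothed indicator -/
noncomputable def UU {n : ℕ} (ρ : ℝ) (f : (Fin n → Bool) → Bool) : (Fin n → Bool) → ℝ :=
  noise ρ (ind f)

/-- average of a functional of the smoothed indicator -/
noncomputable def EE {n : ℕ} (ρ : ℝ) (φ : ℝ → ℝ) (f : (Fin n → Bool) → Bool) : ℝ :=
  cubeAverage (fun x => φ (UU ρ f x))

lemma UU_nonneg {n : ℕ} {ρ : ℝ} (hρ : |ρ| ≤ 1) (f : (Fin n → Bool) → Bool) (x : Fin n → Bool) :
    0 ≤ UU ρ f x := by
  unfold UU; rw [noise_eq]
  exact Finset.sum_nonneg fun y _ => mul_nonneg (ker_nonneg hρ x y) (ind_nonneg f y)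

lemma UU_le_one {n : ℕ} {ρ : ℝ} (hρ : |ρ| ≤ 1) (f : (Fin n → Bool) → Bool) (x : Fin n → Bool) :
    UU ρ f x ≤ 1 := by
  unfold UU; rw [noise_eq]
  calc ∑ y, ker ρ x y * ind f y ≤ ∑ y, ker ρ x y := by
        apply Finset.sum_le_sum
        intro y _
        exact mul_le_of_le_one_right (ker_nonneg hρ x y) (ind_le_one f y)
    _ = 1 := ker_sum ρ x

lemma cubeAverage_UU {n : ℕ} (ρ : ℝ) (f : (Fin n → Bool) → Bool) :
    cubeAverage (UU ρ f) = meas f := cubeAverage_noise ρ _

lemma UU_split {n : ℕ} (ρ : ℝ) (f : (Fin (n + 1) → Bool) → Bool) (i : Fin (n + 1)) (a : Bool)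
    (x : Fin n → Bool) :
    UU ρ f (i.insertNth a x) = (1 + ρ) / 2 * UU ρ (sect f i a) x +
      (1 - ρ) / 2 * UU ρ (sect f i (!a)) x := by
  unfold UU; rw [noise_split]; rfl

lemma EE_split {n : ℕ} (ρ : ℝ) (φ : ℝ → ℝ) (f : (Fin (n + 1) → Bool) → Bool) (i : Fin (n + 1)) :
    EE ρ φ f = cubeAverage (fun x =>
      (φ ((1 + ρ) / 2 * UU ρ (sect f i true) x + (1 - ρ) / 2 * UU ρ (sect f i false) x) +
       φ ((1 - ρ) / 2 * UU ρ (sect f i true) x + (1 + ρ) / 2 * UU ρ (sect f i false) x)) / 2) := by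
  unfold EE
  rw [cubeAverage_split _ i]
  unfold sect
  simp only [UU_split, Bool.not_true, Bool.not_false]
  have e : ∀ F G : (Fin n → Bool) → ℝ, (cubeAverage F + cubeAverage G) / 2 =
      cubeAverage (fun x => (F x + G x) / 2) := by
    intro F G
    have : (fun x => (F x + G x) / 2) = fun x => (1 / 2) * (F x + G x) := by funext x; ring
    rw [this, cubeAverage_mul_left, cubeAverage_add]; ring
  rw [e]
  congr 1
  funext x
  unfold sect
  congr 2
  congr 1
  ring

/-- lower bound of a functional by a certificate involving two functionals of each half -/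
lemma EE_cert {n : ℕ} {ρ : ℝ} (hρ : |ρ| ≤ 1) (φ ψ : ℝ → ℝ) (f : (Fin (n + 1) → Bool) → Bool)
    (i : Fin (n + 1)) {l1 l0 m1 m0 e1 e0 k : ℝ}
    (hc : ∀ u1 u0 : ℝ, 0 ≤ u1 → u1 ≤ 1 → 0 ≤ u0 → u0 ≤ 1 →
      l1 * φ u1 + l0 * φ u0 + (m1 * ψ u1 + m0 * ψ u0) + (e1 * u1 + e0 * u0) + k ≤
        (φ ((1 + ρ) / 2 * u1 + (1 - ρ) / 2 * u0) + φ ((1 - ρ) / 2 * u1 + (1 + ρ) / 2 * u0)) / 2) :
    l1 * EE ρ φ (sect f i true) + l0 * EE ρ φ (sect f i false) +
      (m1 * EE ρ ψ (sect f i true) + m0 * EE ρ ψ (sect f i false)) +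
      (e1 * meas (sect f i true) + e0 * meas (sect f i false)) + k ≤ EE ρ φ f := by
  rw [EE_split ρ φ f i]
  have h := cubeAverage_mono (n := n)
    (fun x => hc (UU ρ (sect f i true) x) (UU ρ (sect f i false) x) (UU_nonneg hρ _ x)
      (UU_le_one hρ _ x) (UU_nonneg hρ _ x) (UU_le_one hρ _ x))
  refine le_trans (le_of_eq ?_) h
  rw [cubeAverage_add, cubeAverage_add, cubeAverage_add, cubeAverage_add, cubeAverage_add,
    cubeAverage_add, cubeAverage_mul_left, cubeAverage_mul_left, cubeAverage_mul_left,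
    cubeAverage_mul_left, cubeAverage_mul_left, cubeAverage_mul_left, cubeAverage_const]
  rw [show cubeAverage (fun x => UU ρ (sect f i true) x) = meas (sect f i true) from
    cubeAverage_UU _ _, show cubeAverage (fun x => UU ρ (sect f i false) x) =
    meas (sect f i false) from cubeAverage_UU _ _]
  rfl

end Crest.Agent.R307
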