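import Mathlib

/-!
Reflective checker for polynomial inequalities on boxes.

`E` : integer polynomial expressions in variables `X 0, X 1, …`;
`nonneg_of_check` : if `check ns tree e = true` (by `decide +kernel`) then `0 ≤ e.eval x` for all
`x` with `0 ≤ x i ≤ 1`.  `ns` = list of degree bounds (one per variable), `tree` = subdivision tree.
-/

set_option autoImplicit false

namespace Crest.Agent.R307.PolyBox

/-! ### real-list semantics -/

/-- `hv s t [a₀,…,aₙ] = ∑ aᵢ tⁱ sⁿ⁻ⁱ` -/
def hv (s t : ℝ) : List ℝ → ℝ
  | [] => 0
  | a :: l => a * s ^ l.length + t * hv s t l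

def addL {α : Type} (add : α → α → α) : List α → List α → List α
  | [], b => b
  | a :: l, [] => a :: l
  | a :: l, b :: m => add a b :: addL add l m

/-- substitution `t → s + f t` where `dbl` is multiplication by `f` -/
def TL {α : Type} (add : α → α → α) (dbl : α → α) : List α → List α
  | [] => []
  | a :: l => (fun g => addL add g (a :: g.map dbl)) (TL add dbl l)

theorem length_addL {α : Type} (add : α → α → α) (l m : List α) :
    (addL add l m).length = max l.length m.length := by
  induction l generalizing m with
  | nil => simp [addL]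
  | cons a l ih =>
    cases m with
    | nil => simp [addL]
    | cons b m => simp only [addL, List.length_cons, ih]; omega

theorem length_TL {α : Type} (add : α → α → α) (dbl : α → α) (l : List α) :
    (TL add dbl l).length = l.length := by
  induction l with
  | nil => rfl
  | cons a l ih =>
    simp only [TL, length_addL, ih, List.length_cons, List.length_map]; omega

theorem hv_addL (s t : ℝ) (l m : List ℝ) (h : m.length = l.length + 1) :
    hv s t (addL (· + ·) l m) = s * hv s t l + hv s t m := by
  induction l generalizing m with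
  | nil => simp [addL, hv]
  | cons a l ih =>
    cases m with
    | nil => simp at h
    | cons b m =>
      simp only [List.length_cons, Nat.add_right_cancel_iff] at h
      have hl : (addL (· + ·) l m).length = l.length + 1 := by
        rw [length_addL, h]; omega
      simp only [addL, hv, ih m h, hl, h]
      ring

theorem hv_smul (s t r : ℝ) (l : List ℝ) : hv s t (l.map (r * ·)) = r * hv s t l := by
  induction l with
  | nil => simp [hv]
  | cons a l ih => simp only [List.map_cons, hv, ih, List.length_map]; ring

theorem hv_TL (s t r : ℝ) (l : List ℝ) :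
    hv s t (TL (· + ·) (r * ·) l) = hv s (s + r * t) l := by
  induction l with
  | nil => rfl
  | cons a l ih =>
    simp only [TL]
    rw [hv_addL _ _ _ _ (by simp)]
    simp only [hv, hv_smul, List.length_map, length_TL, ih]
    ring

theorem hv_append (s t a : ℝ) (l : List ℝ) :
    hv s t (l ++ [a]) = s * hv s t l + a * t ^ l.length := by
  induction l with
  | nil => simp [hv]
  | cons b l ih =>
    simp only [List.cons_append, hv, ih, List.length_append, List.length_cons, List.length_nil]
    ring

theorem hv_reverse (s t : ℝ) (l : List ℝ) : hv s t l.reverse = hv t s l := by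
  induction l with
  | nil => rfl
  | cons a l ih =>
    rw [List.reverse_cons, hv_append, ih, List.length_reverse]
    simp only [hv]; ring

theorem hv_nonneg {s t : ℝ} (hs : 0 ≤ s) (ht : 0 ≤ t) (l : List ℝ) (h : ∀ a ∈ l, 0 ≤ a) :
    0 ≤ hv s t l := by
  induction l with
  | nil => exact le_rfl
  | cons a l ih =>
    have h1 : 0 ≤ a := h a (by simp)
    have h2 := ih (fun b hb => h b (by simp [hb]))
    simp only [hv]
    positivity

/-! ### nested lists -/

def P : List ℕ → Type
  | [] => Int
  | _ :: ns => List (P ns)

def add : (ns : List ℕ) → P ns → P ns → P ns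
  | [] => fun a b => Int.add a b
  | _ :: ns => fun a b => addL (add ns) a b

def smul (r : Int) : (ns : List ℕ) → P ns → P ns
  | [] => fun a => Int.mul r a
  | _ :: ns => fun a => List.map (smul r ns) a

def nonneg : (ns : List ℕ) → P ns → Bool
  | [] => fun a => match a with
    | Int.ofNat _ => true
    | Int.negSucc _ => false
  | _ :: ns => fun a => List.all a (nonneg ns)

def Shape : (ns : List ℕ) → P ns → Prop
  | [] => fun _ => True
  | n :: ns => fun a => List.length (α := P ns) a = n + 1 ∧ ∀ b ∈ (show List (P ns) from a), Shape ns b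

noncomputable def ev : (ns : List ℕ) → P ns → (ℕ → ℝ) → (ℕ → ℝ) → ℝ
  | [] => fun (a : Int) _ _ => ((a : Int) : ℝ)
  | _ :: ns => fun a s t =>
    hv (s 0) (t 0) (List.map (fun b => ev ns b (fun i => s (i + 1)) (fun i => t (i + 1))) a)

theorem addL_map {α : Type} (add : α → α → α) (f : α → ℝ) (S : α → Prop)
    (hf : ∀ a b, S a → S b → f (add a b) = f a + f b) (l m : List α) (hl : ∀ a ∈ l, S a)
    (hm : ∀ a ∈ m, S a) :
    (addL add l m).map f = addL (· + ·) (l.map f) (m.map f) := by
  induction l generalizing m with
  | nil => simp [addL]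
  | cons a l ih =>
    cases m with
    | nil => simp [addL]
    | cons b m =>
      simp only [addL, List.map_cons]
      rw [hf a b (hl a (by simp)) (hm b (by simp)),
        ih m (fun x hx => hl x (by simp [hx])) (fun x hx => hm x (by simp [hx]))]

theorem addL_mem {α : Type} (add : α → α → α) (S : α → Prop)
    (hS : ∀ a b, S a → S b → S (add a b)) (l m : List α) (hl : ∀ a ∈ l, S a)
    (hm : ∀ a ∈ m, S a) : ∀ a ∈ addL add l m, S a := by
  induction l generalizing m with
  | nil => simpa [addL] using hm
  | cons a l ih =>
    cases m with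
    | nil => simpa [addL] using hl
    | cons b m =>
      intro x hx
      simp only [addL, List.mem_cons] at hx
      rcases hx with rfl | hx
      · exact hS _ _ (hl a (by simp)) (hm b (by simp))
      · exact ih m (fun x hx => hl x (by simp [hx])) (fun x hx => hm x (by simp [hx])) x hx

theorem TL_mem {α : Type} (add : α → α → α) (dbl : α → α) (S : α → Prop)
    (hS : ∀ a b, S a → S b → S (add a b)) (hd : ∀ a, S a → S (dbl a)) (l : List α)
    (hl : ∀ a ∈ l, S a) : ∀ a ∈ TL add dbl l, S a := by
  induction l with
  | nil => simp [TL]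
  | cons a l ih =>
    have h1 := ih (fun x hx => hl x (by simp [hx]))
    simp only [TL]
    refine addL_mem add S hS _ _ h1 ?_
    intro x hx
    simp only [List.mem_cons, List.mem_map] at hx
    rcases hx with rfl | ⟨y, hy, rfl⟩
    · exact hl _ (by simp)
    · exact hd _ (h1 y hy)

theorem TL_map {α : Type} (add : α → α → α) (dbl : α → α) (f : α → ℝ) (r : ℝ) (S : α → Prop)
    (hf : ∀ a b, S a → S b → f (add a b) = f a + f b) (hS : ∀ a b, S a → S b → S (add a b))
    (hd : ∀ a, S a → S (dbl a)) (hd' : ∀ a, S a → f (dbl a) = r * f a) (l : List α)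
    (hl : ∀ a ∈ l, S a) :
    (TL add dbl l).map f = TL (· + ·) (r * ·) (l.map f) := by
  induction l with
  | nil => simp [TL]
  | cons a l ih =>
    have hl' : ∀ a ∈ l, S a := fun x hx => hl x (by simp [hx])
    have h1 := TL_mem add dbl S hS hd l hl'
    simp only [TL, List.map_cons]
    rw [addL_map add f S hf _ _ h1]
    · rw [List.map_cons, ih hl', List.map_map, ← ih hl', List.map_map]
      congr 2
      apply List.map_congr_left
      intro x hx
      exact hd' x (h1 x hx)
    · intro x hx
      simp only [List.mem_cons, List.mem_map] at hx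
      rcases hx with rfl | ⟨y, hy, rfl⟩
      · exact hl _ (by simp)
      · exact hd _ (h1 y hy)

theorem shape_add (ns : List ℕ) (a b : P ns) (ha : Shape ns a) (hb : Shape ns b) :
    Shape ns (add ns a b) := by
  induction ns with
  | nil => trivial
  | cons n ns ih =>
    refine ⟨?_, ?_⟩
    · have := length_addL (add ns) a b
      rw [ha.1, hb.1, max_self] at this
      exact this
    · exact addL_mem (add ns) (Shape ns) (fun x y hx hy => ih x y hx hy) a b ha.2 hb.2

theorem hv_addL_eq (s t : ℝ) (l m : List ℝ) (h : m.length = l.length) :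
    hv s t (addL (· + ·) l m) = hv s t l + hv s t m := by
  induction l generalizing m with
  | nil => cases m with
    | nil => simp [addL, hv]
    | cons b m => simp at h
  | cons a l ih =>
    cases m with
    | nil => simp at h
    | cons b m =>
      simp only [List.length_cons, Nat.add_right_cancel_iff] at h
      have hl : (addL (· + ·) l m).length = l.length := by
        rw [length_addL, h]; omega
      simp only [addL, hv, ih m h, hl, h]
      ring

theorem ev_add (ns : List ℕ) (a b : P ns) (ha : Shape ns a) (hb : Shape ns b) (s t : ℕ → ℝ) :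
    ev ns (add ns a b) s t = ev ns a s t + ev ns b s t := by
  induction ns generalizing s t with
  | nil => exact Int.cast_add _ _
  | cons n ns ih =>
    have h := addL_map (add ns) (fun b => ev ns b (fun i => s (i + 1)) (fun i => t (i + 1)))
      (Shape ns) (fun x y hx hy => ih x y hx hy _ _) a b ha.2 hb.2
    have e : ev (n :: ns) (add (n :: ns) a b) s t
        = hv (s 0) (t 0) ((addL (add ns) a b).map
          (fun b => ev ns b (fun i => s (i + 1)) (fun i => t (i + 1)))) := rfl
    rw [e, h, hv_addL_eq]
    · rfl
    · rw [List.length_map, List.length_map]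
      exact hb.1.trans ha.1.symm

theorem shape_smul (r : Int) (ns : List ℕ) (a : P ns) (ha : Shape ns a) :
    Shape ns (smul r ns a) := by
  induction ns with
  | nil => trivial
  | cons n ns ih =>
    refine ⟨?_, ?_⟩
    · exact (List.length_map (smul r ns)).trans ha.1
    · intro b hb
      obtain ⟨x, hx, rfl⟩ := List.mem_map.1 hb
      exact ih x (ha.2 x hx)

theorem ev_smul (r : Int) (ns : List ℕ) (a : P ns) (s t : ℕ → ℝ) :
    ev ns (smul r ns a) s t = r * ev ns a s t := by
  induction ns generalizing s t with
  | nil => exact Int.cast_mul _ _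
  | cons n ns ih =>
    have e : ev (n :: ns) (smul r (n :: ns) a) s t
        = hv (s 0) (t 0) ((List.map (smul r ns) a).map
          (fun b => ev ns b (fun i => s (i + 1)) (fun i => t (i + 1)))) := rfl
    have e2 : ev (n :: ns) a s t = hv (s 0) (t 0) (List.map
          (fun b => ev ns b (fun i => s (i + 1)) (fun i => t (i + 1))) a) := rfl
    rw [e, e2, ← hv_smul, List.map_map, List.map_map]
    congr 1
    apply List.map_congr_left
    intro x _
    exact ih x _ _

theorem ev_nonneg (ns : List ℕ) (a : P ns) (h : nonneg ns a = true) (s t : ℕ → ℝ)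
    (hs : ∀ i, 0 ≤ s i) (ht : ∀ i, 0 ≤ t i) : 0 ≤ ev ns a s t := by
  induction ns generalizing s t with
  | nil =>
    have key : ∀ z : Int, nonneg [] z = true → (0:ℝ) ≤ (z : ℝ) := by
      intro z hz
      cases z with
      | ofNat n => exact Int.cast_nonneg (Int.natCast_nonneg n)
      | negSucc n => exact absurd hz (by simp [nonneg])
    exact key a h
  | cons n ns ih =>
    have h' : List.all (α := P ns) a (nonneg ns) = true := h
    rw [List.all_eq_true] at h'
    refine hv_nonneg (hs 0) (ht 0) _ ?_
    intro x hx
    obtain ⟨y, hy, rfl⟩ := List.mem_map.1 hx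
    exact ih y (h' y hy) _ _ (fun i => hs _) (fun i => ht _)

/-! ### subdivision -/

/-- substitution `t_j → s_j + 2 t_j` -/
def subL : (j : ℕ) → (ns : List ℕ) → P ns → P ns
  | _, [] => fun a => a
  | 0, _ :: ns => fun a => TL (add ns) (smul 2 ns) a
  | j + 1, _ :: ns => fun a => List.map (subL j ns) a

/-- substitution `s_j → t_j + 2 s_j` -/
def subR : (j : ℕ) → (ns : List ℕ) → P ns → P ns
  | _, [] => fun a => a
  | 0, _ :: ns => fun a => List.reverse (TL (add ns) (smul 2 ns) (List.reverse a))
  | j + 1, _ :: ns => fun a => List.map (subR j ns) a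

theorem shape_subL (j : ℕ) (ns : List ℕ) (a : P ns) (ha : Shape ns a) :
    Shape ns (subL j ns a) := by
  induction ns generalizing j with
  | nil => cases j <;> trivial
  | cons n ns ih =>
    cases j with
    | zero =>
      exact ⟨(length_TL (add ns) (smul 2 ns) a).trans ha.1,
        TL_mem _ _ (Shape ns) (shape_add ns) (shape_smul 2 ns) a ha.2⟩
    | succ j =>
      refine ⟨(List.length_map (subL j ns)).trans ha.1, ?_⟩
      intro b hb
      obtain ⟨x, hx, rfl⟩ := List.mem_map.1 hb
      exact ih j x (ha.2 x hx)

theorem shape_subR (j : ℕ) (ns : List ℕ) (a : P ns) (ha : Shape ns a) :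
    Shape ns (subR j ns a) := by
  induction ns generalizing j with
  | nil => cases j <;> trivial
  | cons n ns ih =>
    cases j with
    | zero =>
      refine ⟨?_, ?_⟩
      · have h1 := length_TL (add ns) (smul 2 ns) (List.reverse a)
        have h2 : List.length (α := P ns) (List.reverse (TL (add ns) (smul 2 ns) (List.reverse a)))
          = n + 1 := by
          rw [List.length_reverse, h1, List.length_reverse]
          exact ha.1
        exact h2
      · intro b hb
        have hb' : b ∈ List.reverse (TL (add ns) (smul 2 ns) (List.reverse a)) := hb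
        rw [List.mem_reverse] at hb'
        refine TL_mem _ _ (Shape ns) (shape_add ns) (shape_smul 2 ns) (List.reverse a) ?_ b hb'
        intro x hx
        exact ha.2 x (List.mem_reverse.1 hx)
    | succ j =>
      refine ⟨(List.length_map (subR j ns)).trans ha.1, ?_⟩
      intro b hb
      obtain ⟨x, hx, rfl⟩ := List.mem_map.1 hb
      exact ih j x (ha.2 x hx)

theorem ev_subL (j : ℕ) (ns : List ℕ) (a : P ns) (ha : Shape ns a) (s t : ℕ → ℝ) :
    ev ns (subL j ns a) s t = ev ns a s (Function.update t j (s j + 2 * t j)) := by
  induction ns generalizing j s t with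
  | nil => cases j <;> rfl
  | cons n ns ih =>
    cases j with
    | zero =>
      have h := TL_map (add ns) (smul 2 ns)
        (fun b => ev ns b (fun i => s (i + 1)) (fun i => t (i + 1))) 2 (Shape ns)
        (fun x y hx hy => ev_add ns x y hx hy _ _) (shape_add ns) (shape_smul 2 ns)
        (fun x _ => by have := ev_smul 2 ns x (fun i => s (i + 1)) (fun i => t (i + 1))
                       simpa using this) a ha.2
      have e : ev (n :: ns) (subL 0 (n :: ns) a) s t
        = hv (s 0) (t 0) ((TL (add ns) (smul 2 ns) a).map
          (fun b => ev ns b (fun i => s (i + 1)) (fun i => t (i + 1)))) := rfl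
      rw [e, h, hv_TL]
      rfl
    | succ j =>
      have e : ev (n :: ns) (subL (j + 1) (n :: ns) a) s t
        = hv (s 0) (t 0) ((List.map (subL j ns) a).map
          (fun b => ev ns b (fun i => s (i + 1)) (fun i => t (i + 1)))) := rfl
      have e2 : ev (n :: ns) a s (Function.update t (j + 1) (s (j + 1) + 2 * t (j + 1)))
        = hv (s 0) (t 0) (List.map (fun b => ev ns b (fun i => s (i + 1))
          (fun i => Function.update t (j + 1) (s (j + 1) + 2 * t (j + 1)) (i + 1))) a) := by
        have : t 0 = Function.update t (j + 1) (s (j + 1) + 2 * t (j + 1)) 0 := by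
          rw [Function.update_of_ne (by omega)]
        conv_rhs => rw [this]
        rfl
      rw [e, e2, List.map_map]
      congr 1
      apply List.map_congr_left
      intro x hx
      have := ih j x (ha.2 x hx) (fun i => s (i + 1)) (fun i => t (i + 1))
      simp only [Function.comp]
      rw [this]
      congr 1
      funext i
      by_cases hi : i = j
      · subst hi; simp
      · rw [Function.update_of_ne hi, Function.update_of_ne (by omega)]

theorem ev_subR (j : ℕ) (ns : List ℕ) (a : P ns) (ha : Shape ns a) (s t : ℕ → ℝ) :
    ev ns (subR j ns a) s t = ev ns a (Function.update s j (t j + 2 * s j)) t := by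
  induction ns generalizing j s t with
  | nil => cases j <;> rfl
  | cons n ns ih =>
    cases j with
    | zero =>
      have h := TL_map (add ns) (smul 2 ns)
        (fun b => ev ns b (fun i => s (i + 1)) (fun i => t (i + 1))) 2 (Shape ns)
        (fun x y hx hy => ev_add ns x y hx hy _ _) (shape_add ns) (shape_smul 2 ns)
        (fun x _ => by have := ev_smul 2 ns x (fun i => s (i + 1)) (fun i => t (i + 1))
                       simpa using this) (List.reverse a)
                       (fun x hx => ha.2 x (List.mem_reverse.1 hx))
      have e : ev (n :: ns) (subR 0 (n :: ns) a) s t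
        = hv (s 0) (t 0) ((List.reverse (TL (add ns) (smul 2 ns) (List.reverse a))).map
          (fun b => ev ns b (fun i => s (i + 1)) (fun i => t (i + 1)))) := rfl
      rw [e, List.map_reverse, hv_reverse, h, hv_TL, List.map_reverse, hv_reverse]
      rfl
    | succ j =>
      have e : ev (n :: ns) (subR (j + 1) (n :: ns) a) s t
        = hv (s 0) (t 0) ((List.map (subR j ns) a).map
          (fun b => ev ns b (fun i => s (i + 1)) (fun i => t (i + 1)))) := rfl
      have e2 : ev (n :: ns) a (Function.update s (j + 1) (t (j + 1) + 2 * s (j + 1))) t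
        = hv (s 0) (t 0) (List.map (fun b => ev ns b
          (fun i => Function.update s (j + 1) (t (j + 1) + 2 * s (j + 1)) (i + 1))
          (fun i => t (i + 1))) a) := by
        have : s 0 = Function.update s (j + 1) (t (j + 1) + 2 * s (j + 1)) 0 := by
          rw [Function.update_of_ne (by omega)]
        conv_rhs => rw [this]
        rfl
      rw [e, e2, List.map_map]
      congr 1
      apply List.map_congr_left
      intro x hx
      have := ih j x (ha.2 x hx) (fun i => s (i + 1)) (fun i => t (i + 1))
      simp only [Function.comp]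
      rw [this]
      congr 1
      funext i
      by_cases hi : i = j
      · subst hi; simp
      · rw [Function.update_of_ne hi, Function.update_of_ne (by omega)]

/-- subdivision trees: `node j l r` halves the interval of the variable `j` (`l`: small `x_j`) -/
inductive Tree : Type
  | leaf : Tree
  | node (j : ℕ) (l r : Tree) : Tree

def checkP (ns : List ℕ) : Tree → P ns → Bool
  | .leaf => fun a => nonneg ns a
  | .node j l r => fun a => checkP ns l (subL j ns a) && checkP ns r (subR j ns a)

theorem checkP_sound (ns : List ℕ) (T : Tree) (a : P ns) (ha : Shape ns a)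
    (h : checkP ns T a = true) (s t : ℕ → ℝ) (hs : ∀ i, 0 ≤ s i) (ht : ∀ i, 0 ≤ t i) :
    0 ≤ ev ns a s t := by
  induction T generalizing a s t with
  | leaf => exact ev_nonneg ns a h s t hs ht
  | node j l r ihl ihr =>
    simp only [checkP, Bool.and_eq_true] at h
    rcases le_total (s j) (t j) with hj | hj
    · have h1 := ihl (subL j ns a) (shape_subL j ns a ha) h.1 s
        (Function.update t j ((t j - s j) / 2)) hs (fun i => by
          by_cases hi : i = j
          · subst hi; simp; linarith
          · rw [Function.update_of_ne hi]; exact ht i)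
      rw [ev_subL j ns a ha] at h1
      simp only [Function.update_self, Function.update_idem] at h1
      have e : s j + 2 * ((t j - s j) / 2) = t j := by ring
      rw [e, Function.update_eq_self] at h1
      exact h1
    · have h1 := ihr (subR j ns a) (shape_subR j ns a ha) h.2
        (Function.update s j ((s j - t j) / 2)) t (fun i => by
          by_cases hi : i = j
          · subst hi; simp; linarith
          · rw [Function.update_of_ne hi]; exact hs i) ht
      rw [ev_subR j ns a ha] at h1
      simp only [Function.update_self, Function.update_idem] at h1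
      have e : t j + 2 * ((s j - t j) / 2) = s j := by ring
      rw [e, Function.update_eq_self] at h1
      exact h1

/-! ### polynomial expressions -/

/-- integer polynomial expressions -/
inductive E : Type
  | X (i : ℕ) : E
  | C (c : Int) : E
  | add (a b : E) : E
  | mul (a b : E) : E
  | pow (a : E) (n : ℕ) : E

instance : Add E := ⟨E.add⟩
instance : Mul E := ⟨E.mul⟩
instance : Neg E := ⟨fun a => E.mul (E.C (-1)) a⟩
instance : Sub E := ⟨fun a b => E.add a (E.mul (E.C (-1)) b)⟩
instance : Pow E ℕ := ⟨E.pow⟩
instance (n : ℕ) : OfNat E n := ⟨E.C n⟩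

noncomputable def E.eval (x : ℕ → ℝ) : E → ℝ
  | .X i => x i
  | .C c => (c : ℝ)
  | .add a b => a.eval x + b.eval x
  | .mul a b => a.eval x * b.eval x
  | .pow a n => a.eval x ^ n

@[simp] theorem eval_X (x : ℕ → ℝ) (i : ℕ) : (E.X i).eval x = x i := rfl
@[simp] theorem eval_C (x : ℕ → ℝ) (c : Int) : (E.C c).eval x = (c : ℝ) := rfl
@[simp] theorem eval_add (x : ℕ → ℝ) (a b : E) : (a + b).eval x = a.eval x + b.eval x := rfl
@[simp] theorem eval_mul (x : ℕ → ℝ) (a b : E) : (a * b).eval x = a.eval x * b.eval x := rfl
@[simp] theorem eval_pow (x : ℕ → ℝ) (a : E) (n : ℕ) : (a ^ n).eval x = a.eval x ^ n := rfl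
@[simp] theorem eval_neg (x : ℕ → ℝ) (a : E) : (-a).eval x = - a.eval x := by
  change ((-1 : Int) : ℝ) * a.eval x = _
  push_cast; ring
@[simp] theorem eval_sub (x : ℕ → ℝ) (a b : E) : (a - b).eval x = a.eval x - b.eval x := by
  change a.eval x + ((-1 : Int) : ℝ) * b.eval x = _
  push_cast; ring
@[simp] theorem eval_ofNat (x : ℕ → ℝ) (n : ℕ) [n.AtLeastTwo] :
    (OfNat.ofNat n : E).eval x = (OfNat.ofNat n : ℝ) := by
  change (((n : ℕ) : Int) : ℝ) = _
  rw [Int.cast_natCast]; rfl
@[simp] theorem eval_one (x : ℕ → ℝ) : (1 : E).eval x = 1 := by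
  change (((1 : ℕ) : Int) : ℝ) = _
  simp
@[simp] theorem eval_zero (x : ℕ → ℝ) : (0 : E).eval x = 0 := by
  change (((0 : ℕ) : Int) : ℝ) = _
  simp

/-! ### monomial arithmetic: nested coefficient lists, lowest degree first -/

def M : ℕ → Type
  | 0 => Int
  | k + 1 => List (M k)

def madd : (k : ℕ) → M k → M k → M k
  | 0 => fun a b => Int.add a b
  | k + 1 => fun a b => addL (madd k) a b

def mzero : (k : ℕ) → M k
  | 0 => Int.ofNat 0
  | _ + 1 => []

def mconst (c : Int) : (k : ℕ) → M k
  | 0 => c
  | k + 1 => [mconst c k]

def mmulL {α : Type} (add : α → α → α) (mul : α → α → α) (zero : α) : List α → List α → List α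
  | [], _ => []
  | a :: l, m => addL add (List.map (mul a) m) (zero :: mmulL add mul zero l m)

def mmul : (k : ℕ) → M k → M k → M k
  | 0 => fun a b => Int.mul a b
  | k + 1 => fun a b => mmulL (madd k) (mmul k) (mzero k) a b

def mvar : (k : ℕ) → ℕ → M k
  | 0, _ => Int.ofNat 0
  | k + 1, 0 => [mzero k, mconst 1 k]
  | k + 1, i + 1 => [mvar k i]

def mpow (k : ℕ) (a : M k) : ℕ → M k
  | 0 => mconst 1 k
  | n + 1 => mmul k (mpow k a n) a

/-- real-list Horner -/
def mh (x : ℝ) : List ℝ → ℝ
  | [] => 0
  | a :: l => a + x * mh x l

noncomputable def mev : (k : ℕ) → M k → (ℕ → ℝ) → ℝ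
  | 0 => fun (a : Int) _ => ((a : Int) : ℝ)
  | k + 1 => fun a x => mh (x 0) (List.map (fun b => mev k b (fun i => x (i + 1))) a)

theorem mh_addL (x : ℝ) (l m : List ℝ) : mh x (addL (· + ·) l m) = mh x l + mh x m := by
  induction l generalizing m with
  | nil => simp [addL, mh]
  | cons a l ih =>
    cases m with
    | nil => simp [addL, mh]
    | cons b m => simp only [addL, mh, ih]; ring

theorem mev_add (k : ℕ) (a b : M k) (x : ℕ → ℝ) :
    mev k (madd k a b) x = mev k a x + mev k b x := by
  induction k generalizing x with
  | zero => exact Int.cast_add _ _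
  | succ k ih =>
    have h := addL_map (madd k) (fun b => mev k b (fun i => x (i + 1))) (fun _ => True)
      (fun u v _ _ => ih u v _) a b (fun _ _ => trivial) (fun _ _ => trivial)
    have e : mev (k + 1) (madd (k + 1) a b) x
      = mh (x 0) ((addL (madd k) a b).map (fun b => mev k b (fun i => x (i + 1)))) := rfl
    rw [e, h, mh_addL]
    rfl

theorem mev_zero (k : ℕ) (x : ℕ → ℝ) : mev k (mzero k) x = 0 := by
  cases k with
  | zero => exact Int.cast_zero
  | succ k => rfl

theorem mev_const (c : Int) (k : ℕ) (x : ℕ → ℝ) : mev k (mconst c k) x = c := by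
  induction k generalizing x with
  | zero => rfl
  | succ k ih =>
    have e : mev (k + 1) (mconst c (k + 1)) x
      = mev k (mconst c k) (fun i => x (i + 1)) + x 0 * 0 := rfl
    rw [e, ih]; ring

theorem mh_smul (x r : ℝ) (l : List ℝ) : mh x (l.map (r * ·)) = r * mh x l := by
  induction l with
  | nil => simp [mh]
  | cons a l ih => simp only [List.map_cons, mh, ih]; ring

theorem mev_mul (k : ℕ) (a b : M k) (x : ℕ → ℝ) :
    mev k (mmul k a b) x = mev k a x * mev k b x := by
  induction k generalizing x with
  | zero => exact Int.cast_mul _ _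
  | succ k ih =>
    have key : ∀ (l m : List (M k)),
        mev (k + 1) (mmulL (madd k) (mmul k) (mzero k) l m) x
          = mev (k + 1) l x * mev (k + 1) m x := by
      intro l m
      induction l with
      | nil =>
        have e : mev (k + 1) (mmulL (madd k) (mmul k) (mzero k) [] m) x = 0 := rfl
        have e2 : mev (k + 1) ([] : List (M k)) x = 0 := rfl
        rw [e, e2]; ring
      | cons u l ihl =>
        have e : mev (k + 1) (mmulL (madd k) (mmul k) (mzero k) (u :: l) m) x
          = mev (k + 1) (madd (k + 1) (List.map (mmul k u) m)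
            (mzero k :: mmulL (madd k) (mmul k) (mzero k) l m)) x := rfl
        have e1 : mev (k + 1) (List.map (mmul k u) m) x
            = mev k u (fun i => x (i + 1)) * mev (k + 1) m x := by
          have e3 : mev (k + 1) (List.map (mmul k u) m) x
            = mh (x 0) ((List.map (mmul k u) m).map (fun b => mev k b (fun i => x (i + 1)))) := rfl
          have e4 : mev (k + 1) m x
            = mh (x 0) (List.map (fun b => mev k b (fun i => x (i + 1))) m) := rfl
          rw [e3, e4, ← mh_smul, List.map_map, List.map_map]
          congr 1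
          apply List.map_congr_left
          intro v _
          exact ih u v _
        have e2 : mev (k + 1) (mzero k :: mmulL (madd k) (mmul k) (mzero k) l m) x
            = mev k (mzero k) (fun i => x (i + 1))
              + x 0 * mev (k + 1) (mmulL (madd k) (mmul k) (mzero k) l m) x := rfl
        have e5 : mev (k + 1) (u :: l) x
            = mev k u (fun i => x (i + 1)) + x 0 * mev (k + 1) l x := rfl
        rw [e, mev_add, e1, e2, ihl, mev_zero, e5]
        ring
    exact key a b

theorem mev_var (k i : ℕ) (hi : i < k) (x : ℕ → ℝ) : mev k (mvar k i) x = x i := by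
  induction k generalizing i x with
  | zero => omega
  | succ k ih =>
    cases i with
    | zero =>
      have e : mev (k + 1) (mvar (k + 1) 0) x
        = mev k (mzero k) (fun i => x (i + 1)) +
          x 0 * (mev k (mconst 1 k) (fun i => x (i + 1)) + x 0 * 0) := rfl
      rw [e, mev_zero, mev_const]; simp
    | succ i =>
      have e : mev (k + 1) (mvar (k + 1) (i + 1)) x
        = mev k (mvar k i) (fun i => x (i + 1)) + x 0 * 0 := rfl
      rw [e, ih i (by omega)]; ring

theorem mev_pow (k : ℕ) (a : M k) (n : ℕ) (x : ℕ → ℝ) :
    mev k (mpow k a n) x = mev k a x ^ n := by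
  induction n with
  | zero => simp [mpow, mev_const]
  | succ n ih => rw [mpow, mev_mul, ih, pow_succ]

/-- all variables have index `< k` -/
def E.ok (k : ℕ) : E → Bool
  | .X i => Nat.blt i k
  | .C _ => true
  | .add a b => a.ok k && b.ok k
  | .mul a b => a.ok k && b.ok k
  | .pow a _ => a.ok k

def E.toM (k : ℕ) : E → M k
  | .X i => mvar k i
  | .C c => mconst c k
  | .add a b => madd k (a.toM k) (b.toM k)
  | .mul a b => mmul k (a.toM k) (b.toM k)
  | .pow a n => mpow k (a.toM k) n

theorem mev_toM (k : ℕ) (e : E) (h : e.ok k = true) (x : ℕ → ℝ) :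
    mev k (e.toM k) x = e.eval x := by
  induction e with
  | X i => exact mev_var k i (by simpa [E.ok, Nat.blt_eq] using h) x
  | C c => exact mev_const c k x
  | add a b iha ihb =>
    simp only [E.ok, Bool.and_eq_true] at h
    rw [E.toM, mev_add, iha h.1, ihb h.2]; rfl
  | mul a b iha ihb =>
    simp only [E.ok, Bool.and_eq_true] at h
    rw [E.toM, mev_mul, iha h.1, ihb h.2]; rfl
  | pow a n iha =>
    rw [E.toM, mev_pow, iha h]; rfl

/-! ### monomial form to Bernstein form -/

def pzero : (ns : List ℕ) → P ns
  | [] => Int.ofNat 0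
  | n :: ns => List.replicate (n + 1) (pzero ns)

/-- pad (or fail) to length `m` -/
def padTo {α : Type} (z : α) : ℕ → List α → List α
  | 0, _ => []
  | m + 1, [] => z :: padTo z m []
  | m + 1, a :: l => a :: padTo z m l

def toB : (ns : List ℕ) → M ns.length → P ns
  | [] => fun a => a
  | n :: ns => fun a =>
    TL (add ns) (smul 1 ns) (List.reverse (padTo (pzero ns) (n + 1) (List.map (toB ns) a)))

/-- degree bounds hold -/
def fits : (ns : List ℕ) → M ns.length → Bool
  | [] => fun _ => true
  | n :: ns => fun a => Nat.ble (List.length a) (n + 1) && List.all a (fits ns)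

theorem shape_pzero (ns : List ℕ) : Shape ns (pzero ns) := by
  induction ns with
  | nil => trivial
  | cons n ns ih =>
    refine ⟨List.length_replicate, ?_⟩
    intro b hb
    obtain ⟨_, rfl⟩ := List.mem_replicate.1 hb
    exact ih

theorem length_padTo {α : Type} (z : α) (m : ℕ) (l : List α) : (padTo z m l).length = m := by
  induction m generalizing l with
  | zero => rfl
  | succ m ih => cases l <;> simp [padTo, ih]

theorem padTo_mem {α : Type} (z : α) (S : α → Prop) (hz : S z) (m : ℕ) (l : List α)
    (hl : ∀ a ∈ l, S a) : ∀ a ∈ padTo z m l, S a := by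
  induction m generalizing l with
  | zero => simp [padTo]
  | succ m ih =>
    cases l with
    | nil =>
      intro a ha
      simp only [padTo, List.mem_cons] at ha
      rcases ha with rfl | ha
      · exact hz
      · exact ih [] (by simp) a ha
    | cons b l =>
      intro a ha
      simp only [padTo, List.mem_cons] at ha
      rcases ha with rfl | ha
      · exact hl _ (by simp)
      · exact ih l (fun x hx => hl x (by simp [hx])) a ha

theorem shape_toB (ns : List ℕ) (a : M ns.length) : Shape ns (toB ns a) := by
  induction ns with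
  | nil => trivial
  | cons n ns ih =>
    have hm : ∀ b ∈ List.reverse (padTo (pzero ns) (n + 1) (List.map (toB ns) a)), Shape ns b := by
      intro b hb
      rw [List.mem_reverse] at hb
      refine padTo_mem (pzero ns) (Shape ns) (shape_pzero ns) _ _ ?_ b hb
      intro c hc
      obtain ⟨d, _, rfl⟩ := List.mem_map.1 hc
      exact ih d
    refine ⟨?_, ?_⟩
    · refine (length_TL (add ns) (smul 1 ns) _).trans ?_
      rw [List.length_reverse, length_padTo]
    · exact TL_mem _ _ (Shape ns) (shape_add ns) (shape_smul 1 ns) _ hm

theorem hv_zeros (s : ℝ) (m : ℕ) : hv 1 s (List.replicate m 0) = 0 ∧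
    ∀ t : ℝ, hv s t (List.replicate m 0) = 0 := by
  constructor
  · induction m with
    | zero => rfl
    | succ m ih => simp [List.replicate_succ, hv, ih]
  · intro t
    induction m with
    | zero => rfl
    | succ m ih => simp [List.replicate_succ, hv, ih]

theorem padTo_map {α : Type} (z : α) (f : α → ℝ) (hz : f z = 0) (m : ℕ) (l : List α)
    (x : ℝ) (hl : l.length ≤ m) :
    hv 1 x ((padTo z m l).map f) = mh x (l.map f) := by
  induction m generalizing l with
  | zero =>
    have : l = [] := List.length_eq_zero_iff.1 (by omega)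
    subst this; rfl
  | succ m ih =>
    cases l with
    | nil =>
      have := ih [] (by simp)
      simp only [padTo, List.map_cons, hv, hz, this]
      simp [mh]
    | cons a l =>
      have := ih l (by simpa using hl)
      simp only [padTo, List.map_cons, hv, this, mh, one_pow, mul_one]

theorem ev_pzero (ns : List ℕ) (s t : ℕ → ℝ) : ev ns (pzero ns) s t = 0 := by
  induction ns generalizing s t with
  | nil => exact Int.cast_zero
  | cons n ns ih =>
    have e : ev (n :: ns) (pzero (n :: ns)) s t
      = hv (s 0) (t 0) ((List.replicate (n + 1) (pzero ns)).map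
        (fun b => ev ns b (fun i => s (i + 1)) (fun i => t (i + 1)))) := rfl
    rw [e, List.map_replicate, ih]
    exact (hv_zeros (s 0) (n + 1)).2 _

theorem ev_toB (ns : List ℕ) (a : M ns.length) (h : fits ns a = true) (x : ℕ → ℝ) :
    ev ns (toB ns a) x (fun i => 1 - x i) = mev ns.length a x := by
  induction ns generalizing x with
  | nil => rfl
  | cons n ns ih =>
    have h' : (Nat.ble (List.length (α := M ns.length) a) (n + 1) &&
      List.all (α := M ns.length) a (fits ns)) = true := h
    rw [Bool.and_eq_true, List.all_eq_true] at h'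
    obtain ⟨h1, h2⟩ := h'
    have h1' : List.length (α := M ns.length) a ≤ n + 1 := Nat.le_of_ble_eq_true h1
    have hm : ∀ b ∈ List.reverse (padTo (pzero ns) (n + 1) (List.map (toB ns) a)), Shape ns b := by
      intro b hb
      rw [List.mem_reverse] at hb
      refine padTo_mem (pzero ns) (Shape ns) (shape_pzero ns) _ _ ?_ b hb
      intro c hc
      obtain ⟨d, _, rfl⟩ := List.mem_map.1 hc
      exact shape_toB ns d
    have e : ev (n :: ns) (toB (n :: ns) a) x (fun i => 1 - x i)
      = hv (x 0) (1 - x 0) ((TL (add ns) (smul 1 ns)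
          (List.reverse (padTo (pzero ns) (n + 1) (List.map (toB ns) a)))).map
        (fun b => ev ns b (fun i => x (i + 1)) (fun i => 1 - x (i + 1)))) := rfl
    have h3 := TL_map (add ns) (smul 1 ns)
        (fun b => ev ns b (fun i => x (i + 1)) (fun i => 1 - x (i + 1))) 1 (Shape ns)
        (fun u v hu hv => ev_add ns u v hu hv _ _) (shape_add ns) (shape_smul 1 ns)
        (fun u _ => by
          have := ev_smul 1 ns u (fun i => x (i + 1)) (fun i => 1 - x (i + 1))
          simpa using this)
        _ hm
    rw [e, h3, hv_TL, List.map_reverse, hv_reverse]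
    have e4 : x 0 + 1 * (1 - x 0) = 1 := by ring
    have h6 := padTo_map (pzero ns)
      (fun b => ev ns b (fun i => x (i + 1)) (fun i => 1 - x (i + 1)))
      (ev_pzero ns _ _) (n + 1) (List.map (toB ns) a) (x 0) (by rw [List.length_map]; exact h1')
    rw [e4]
    refine h6.trans ?_
    rw [List.map_map]
    have e5 : mev (List.length (n :: ns)) a x
      = mh (x 0) (List.map (fun b => mev ns.length b (fun i => x (i + 1))) a) := rfl
    rw [e5]
    congr 1
    apply List.map_congr_left
    intro b hb
    exact ih b (h2 b hb) _

/-- the complete check -/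
def check (ns : List ℕ) (T : Tree) (e : E) : Bool :=
  e.ok ns.length && (fits ns (e.toM ns.length) && checkP ns T (toB ns (e.toM ns.length)))

theorem nonneg_of_check (ns : List ℕ) (T : Tree) (e : E) (h : check ns T e = true) (x : ℕ → ℝ)
    (h0 : ∀ i, 0 ≤ x i) (h1 : ∀ i, x i ≤ 1) : 0 ≤ e.eval x := by
  simp only [check, Bool.and_eq_true] at h
  obtain ⟨hok, hf, hc⟩ := h
  rw [← mev_toM ns.length e hok x, ← ev_toB ns _ hf x]
  exact checkP_sound ns T _ (shape_toB ns _) hc x _ h0 (fun i => by simpa using h1 i)

/-- three variables -/
theorem nonneg3 (n0 n1 n2 : ℕ) (T : Tree) (e : E) (h : check [n0, n1, n2] T e = true)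
    {a b c : ℝ} (ha : 0 ≤ a) (ha1 : a ≤ 1) (hb : 0 ≤ b) (hb1 : b ≤ 1) (hc : 0 ≤ c) (hc1 : c ≤ 1) :
    (0 : ℝ) ≤ e.eval (fun i => match i with | 0 => a | 1 => b | 2 => c | _ => 0) := by
  refine nonneg_of_check _ T e h _ ?_ ?_ <;> intro i <;> match i with
    | 0 => assumption
    | 1 => assumption
    | 2 => assumption
    | _ + 3 => simp

/-- two variables -/
theorem nonneg2 (n0 n1 : ℕ) (T : Tree) (e : E) (h : check [n0, n1] T e = true)
    {a b : ℝ} (ha : 0 ≤ a) (ha1 : a ≤ 1) (hb : 0 ≤ b) (hb1 : b ≤ 1) :
    (0 : ℝ) ≤ e.eval (fun i => match i with | 0 => a | 1 => b | _ => 0) := by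
  refine nonneg_of_check _ T e h _ ?_ ?_ <;> intro i <;> match i with
    | 0 => assumption
    | 1 => assumption
    | _ + 2 => simp

/-- one variable -/
theorem nonneg1 (n0 : ℕ) (T : Tree) (e : E) (h : check [n0] T e = true)
    {a : ℝ} (ha : 0 ≤ a) (ha1 : a ≤ 1) :
    (0 : ℝ) ≤ e.eval (fun i => match i with | 0 => a | _ => 0) := by
  refine nonneg_of_check _ T e h _ ?_ ?_ <;> intro i <;> match i with
    | 0 => assumption
    | _ + 1 => simp

/-- four variables -/
theorem nonneg4 (n0 n1 n2 n3 : ℕ) (T : Tree) (e : E) (h : check [n0, n1, n2, n3] T e = true)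
    {a b c d : ℝ} (ha : 0 ≤ a) (ha1 : a ≤ 1) (hb : 0 ≤ b) (hb1 : b ≤ 1) (hc : 0 ≤ c) (hc1 : c ≤ 1)
    (hd : 0 ≤ d) (hd1 : d ≤ 1) :
    (0 : ℝ) ≤ e.eval (fun i => match i with | 0 => a | 1 => b | 2 => c | 3 => d | _ => 0) := by
  refine nonneg_of_check _ T e h _ ?_ ?_ <;> intro i <;> match i with
    | 0 => assumption
    | 1 => assumption
    | 2 => assumption
    | 3 => assumption
    | _ + 4 => simp

end Crest.Agent.R307.PolyBox
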