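import Crest.Agent.R307.PolyBox

/-!
Kernel-efficient version of the checker in `PolyBox` (direct recursors, fewer traversals).
Same interface: `checkK ns tree e`, `nonnegK_of_check`, `nonnegK1 … nonnegK4`.
-/

set_option autoImplicit false

namespace Crest.Agent.R307.PolyBox

noncomputable section

abbrev mapK {α β : Type} (f : α → β) (l : List α) : List β :=
  List.rec (motive := fun _ => List β) [] (fun a _ ih => f a :: ih) l

abbrev addK {α : Type} (add : α → α → α) (l : List α) : List α → List α :=
  List.rec (motive := fun _ => List α → List α) (fun m => m)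
    (fun a l ih m => List.rec (motive := fun _ => List α) (a :: l) (fun b m _ => add a b :: ih m) m) l

abbrev adddK {α : Type} (addd : α → α → α) (dbl : α → α) (l : List α) : List α → List α :=
  List.rec (motive := fun _ => List α → List α) (fun m => mapK dbl m)
    (fun a l ih m => List.rec (motive := fun _ => List α) (a :: l)
      (fun b m _ => addd a b :: ih m) m) l

abbrev goK {α : Type} (addd : α → α → α) (dbl : α → α) (g : List α) : α → List α :=
  List.rec (motive := fun _ => α → List α) (fun p => [dbl p]) (fun x _ ih p => addd x p :: ih x) g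

abbrev stepK {α : Type} (add addd : α → α → α) (dbl : α → α) (a : α) (g : List α) : List α :=
  List.rec (motive := fun _ => List α) [a] (fun x g _ => add x a :: goK addd dbl g x) g

abbrev TK {α : Type} (add addd : α → α → α) (dbl : α → α) (l : List α) : List α :=
  List.rec (motive := fun _ => List α) [] (fun a _ ih => stepK add addd dbl a ih) l

abbrev revK {α : Type} (l : List α) : List α :=
  List.rec (motive := fun _ => List α → List α) (fun acc => acc) (fun a _ ih acc => ih (a :: acc))
    l []

abbrev allK {α : Type} (p : α → Bool) (l : List α) : Bool :=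
  List.rec (motive := fun _ => Bool) true
    (fun a _ ih => Bool.rec (motive := fun _ => Bool) false ih (p a)) l

theorem mapK_eq {α β : Type} (f : α → β) (l : List α) : mapK f l = l.map f := by
  induction l with
  | nil => rfl
  | cons a l ih => exact congrArg (f a :: ·) ih

theorem addK_eq {α : Type} (add : α → α → α) (l m : List α) : addK add l m = addL add l m := by
  induction l generalizing m with
  | nil => rfl
  | cons a l ih =>
    cases m with
    | nil => rfl
    | cons b m => exact congrArg (add a b :: ·) (ih m)

theorem adddK_eq {α : Type} (add addd : α → α → α) (dbl : α → α)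
    (h : ∀ x y, addd x y = add x (dbl y)) (l m : List α) :
    adddK addd dbl l m = addL add l (m.map dbl) := by
  induction l generalizing m with
  | nil =>
    have e : adddK addd dbl [] m = mapK dbl m := rfl
    rw [e, mapK_eq]; rfl
  | cons a l ih =>
    cases m with
    | nil => rfl
    | cons b m =>
      have e : adddK addd dbl (a :: l) (b :: m) = addd a b :: adddK addd dbl l m := rfl
      rw [e, ih, h]; rfl

theorem goK_eq {α : Type} (add addd : α → α → α) (dbl : α → α)
    (h : ∀ x y, addd x y = add x (dbl y)) (g : List α) (p : α) :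
    goK addd dbl g p = addL add g (dbl p :: g.map dbl) := by
  induction g generalizing p with
  | nil => rfl
  | cons x g ih =>
    have e : goK addd dbl (x :: g) p = addd x p :: goK addd dbl g x := rfl
    rw [e, ih, h]; rfl

theorem stepK_eq {α : Type} (add addd : α → α → α) (dbl : α → α)
    (h : ∀ x y, addd x y = add x (dbl y)) (a : α) (g : List α) :
    stepK add addd dbl a g = addL add g (a :: g.map dbl) := by
  cases g with
  | nil => rfl
  | cons x g =>
    have e : stepK add addd dbl a (x :: g) = add x a :: goK addd dbl g x := rfl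
    rw [e, goK_eq add addd dbl h]; rfl

theorem TK_eq {α : Type} (add addd : α → α → α) (dbl : α → α)
    (h : ∀ x y, addd x y = add x (dbl y)) (l : List α) :
    TK add addd dbl l = TL add dbl l := by
  induction l with
  | nil => rfl
  | cons a l ih =>
    have e : TK add addd dbl (a :: l) = stepK add addd dbl a (TK add addd dbl l) := rfl
    rw [e, stepK_eq add addd dbl h, ih]; rfl

theorem revK_eq {α : Type} (l : List α) : revK l = l.reverse := by
  have h : ∀ (l acc : List α), (List.rec (motive := fun _ => List α → List α) (fun acc => acc)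
      (fun a _ ih acc => ih (a :: acc)) l : List α → List α) acc = l.reverse ++ acc := by
    intro l
    induction l with
    | nil => intro acc; rfl
    | cons a l ih =>
      intro acc
      rw [List.reverse_cons, List.append_assoc]
      exact ih (a :: acc)
  have := h l []
  rw [List.append_nil] at this
  exact this

theorem allK_eq {α : Type} (p : α → Bool) (l : List α) : allK p l = l.all p := by
  induction l with
  | nil => rfl
  | cons a l ih =>
    have e : allK p (a :: l) = Bool.rec (motive := fun _ => Bool) false (allK p l) (p a) := rfl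
    rw [e, ih, List.all_cons]
    cases p a <;> rfl

abbrev dbl0 : Int → Int := fun x => Int.add x x
abbrev addd0 : Int → Int → Int := fun x y => Int.add x (Int.add y y)

abbrev addP (ns : List ℕ) : P ns → P ns → P ns :=
  List.rec (motive := fun ns => P ns → P ns → P ns) Int.add (fun _ _ ih => addK ih) ns
abbrev dblP (ns : List ℕ) : P ns → P ns :=
  List.rec (motive := fun ns => P ns → P ns) dbl0 (fun _ _ ih => mapK ih) ns
abbrev adddP (ns : List ℕ) : P ns → P ns → P ns :=
  List.rec (motive := fun ns => P ns → P ns → P ns) addd0 (fun _ ns ih => adddK ih (dblP ns)) ns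
abbrev nonnegP (ns : List ℕ) : P ns → Bool :=
  List.rec (motive := fun ns => P ns → Bool)
    (fun a => Int.rec (motive := fun _ => Bool) (fun _ => true) (fun _ => false) a)
    (fun _ _ ih => allK ih) ns

theorem addP_eq (ns : List ℕ) : addP ns = add ns := by
  induction ns with
  | nil => rfl
  | cons n ns ih =>
    funext a b
    have e : addP (n :: ns) a b = addK (addP ns) a b := rfl
    rw [e, addK_eq, ih]; rfl

theorem dblP_eq (ns : List ℕ) : dblP ns = smul 2 ns := by
  induction ns with
  | nil =>
    funext a
    have key : ∀ z : Int, Int.add z z = Int.mul 2 z := fun z => by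
      change z + z = 2 * z
      ring
    exact key a
  | cons n ns ih =>
    funext a
    have e : dblP (n :: ns) a = mapK (dblP ns) a := rfl
    rw [e, mapK_eq, ih]; rfl

theorem adddP_eq (ns : List ℕ) : ∀ x y, adddP ns x y = add ns x (smul 2 ns y) := by
  induction ns with
  | nil =>
    intro x y
    have key : ∀ z w : Int, Int.add z (Int.add w w) = Int.add z (Int.mul 2 w) := fun z w => by
      change z + (w + w) = z + 2 * w
      ring
    exact key x y
  | cons n ns ih =>
    intro x y
    have e : adddP (n :: ns) x y = adddK (adddP ns) (dblP ns) x y := rfl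
    rw [e, adddK_eq (add ns) (adddP ns) (dblP ns) (by rw [dblP_eq]; exact ih), dblP_eq]; rfl

theorem nonnegP_eq (ns : List ℕ) : nonnegP ns = nonneg ns := by
  induction ns with
  | nil =>
    funext a
    have key : ∀ z : Int, nonnegP [] z = nonneg [] z := fun z => by cases z <;> rfl
    exact key a
  | cons n ns ih =>
    funext a
    have e : nonnegP (n :: ns) a = allK (nonnegP ns) a := rfl
    rw [e, allK_eq, ih]; rfl

def subLK : (j : ℕ) → (ns : List ℕ) → P ns → P ns
  | _, [] => fun a => a
  | 0, _ :: ns => fun a => TK (addP ns) (adddP ns) (dblP ns) a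
  | j + 1, _ :: ns => fun a => mapK (subLK j ns) a

def subRK : (j : ℕ) → (ns : List ℕ) → P ns → P ns
  | _, [] => fun a => a
  | 0, _ :: ns => fun a => revK (TK (addP ns) (adddP ns) (dblP ns) (revK a))
  | j + 1, _ :: ns => fun a => mapK (subRK j ns) a

theorem TK_eq' (ns : List ℕ) (a : List (P ns)) :
    TK (addP ns) (adddP ns) (dblP ns) a = TL (add ns) (smul 2 ns) a := by
  rw [TK_eq (addP ns) (adddP ns) (dblP ns) (by rw [addP_eq, dblP_eq]; exact adddP_eq ns), addP_eq,
    dblP_eq]

theorem subLK_eq (ns : List ℕ) : ∀ j, subLK j ns = subL j ns := by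
  induction ns with
  | nil => intro j; cases j <;> rfl
  | cons n ns ih =>
    intro j
    funext a
    cases j with
    | zero => exact TK_eq' ns a
    | succ j =>
      have e : subLK (j + 1) (n :: ns) a = mapK (subLK j ns) a := rfl
      rw [e, mapK_eq, ih]; rfl

theorem subRK_eq (ns : List ℕ) : ∀ j, subRK j ns = subR j ns := by
  induction ns with
  | nil => intro j; cases j <;> rfl
  | cons n ns ih =>
    intro j
    funext a
    cases j with
    | zero =>
      have e : subRK 0 (n :: ns) a = revK (TK (addP ns) (adddP ns) (dblP ns) (revK a)) := rfl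
      rw [e, TK_eq', revK_eq, revK_eq]; rfl
    | succ j =>
      have e : subRK (j + 1) (n :: ns) a = mapK (subRK j ns) a := rfl
      rw [e, mapK_eq, ih]; rfl

def checkPK (ns : List ℕ) (T : Tree) : P ns → Bool :=
  Tree.rec (motive := fun _ => P ns → Bool) (nonnegP ns)
    (fun j _ _ l r a => Bool.rec (motive := fun _ => Bool) false (r (subRK j ns a))
      (l (subLK j ns a))) T

theorem checkPK_eq (ns : List ℕ) (T : Tree) : checkPK ns T = checkP ns T := by
  induction T with
  | leaf => exact nonnegP_eq ns
  | node j l r ihl ihr =>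
    funext a
    have e : checkPK ns (.node j l r) a
      = Bool.rec (motive := fun _ => Bool) false (checkPK ns r (subRK j ns a))
        (checkPK ns l (subLK j ns a)) := rfl
    rw [e, ihl, ihr, subLK_eq, subRK_eq]
    simp only [checkP]
    cases checkP ns l (subL j ns a) <;> rfl

/-- the complete check, kernel-efficient -/
def checkK (ns : List ℕ) (T : Tree) (e : E) : Bool :=
  e.ok ns.length && (fits ns (e.toM ns.length) && checkPK ns T (toB ns (e.toM ns.length)))

theorem checkK_eq (ns : List ℕ) (T : Tree) (e : E) : checkK ns T e = check ns T e := by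
  simp only [checkK, check, checkPK_eq]

theorem nonneg3K (n0 n1 n2 : ℕ) (T : Tree) (e : E) (h : checkK [n0, n1, n2] T e = true)
    {a b c : ℝ} (ha : 0 ≤ a) (ha1 : a ≤ 1) (hb : 0 ≤ b) (hb1 : b ≤ 1) (hc : 0 ≤ c) (hc1 : c ≤ 1) :
    (0 : ℝ) ≤ e.eval (fun i => match i with | 0 => a | 1 => b | 2 => c | _ => 0) :=
  nonneg3 n0 n1 n2 T e (by rw [← checkK_eq]; exact h) ha ha1 hb hb1 hc hc1

theorem nonneg2K (n0 n1 : ℕ) (T : Tree) (e : E) (h : checkK [n0, n1] T e = true)
    {a b : ℝ} (ha : 0 ≤ a) (ha1 : a ≤ 1) (hb : 0 ≤ b) (hb1 : b ≤ 1) :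
    (0 : ℝ) ≤ e.eval (fun i => match i with | 0 => a | 1 => b | _ => 0) :=
  nonneg2 n0 n1 T e (by rw [← checkK_eq]; exact h) ha ha1 hb hb1

theorem nonneg1K (n0 : ℕ) (T : Tree) (e : E) (h : checkK [n0] T e = true)
    {a : ℝ} (ha : 0 ≤ a) (ha1 : a ≤ 1) :
    (0 : ℝ) ≤ e.eval (fun i => match i with | 0 => a | _ => 0) :=
  nonneg1 n0 T e (by rw [← checkK_eq]; exact h) ha ha1

theorem nonneg4K (n0 n1 n2 n3 : ℕ) (T : Tree) (e : E) (h : checkK [n0, n1, n2, n3] T e = true)
    {a b c d : ℝ} (ha : 0 ≤ a) (ha1 : a ≤ 1) (hb : 0 ≤ b) (hb1 : b ≤ 1) (hc : 0 ≤ c) (hc1 : c ≤ 1)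
    (hd : 0 ≤ d) (hd1 : d ≤ 1) :
    (0 : ℝ) ≤ e.eval (fun i => match i with | 0 => a | 1 => b | 2 => c | 3 => d | _ => 0) :=
  nonneg4 n0 n1 n2 n3 T e (by rw [← checkK_eq]; exact h) ha ha1 hb hb1 hc hc1 hd hd1

theorem eval_lit (x : ℕ → ℝ) (n : ℕ) : E.eval x (no_index (OfNat.ofNat n)) = (n : ℝ) := by
  change (((n : ℕ) : Int) : ℝ) = _
  rw [Int.cast_natCast]

/-- simp set to turn `E.eval … (…)` into a real expression -/
theorem eval_lit0 (x : ℕ → ℝ) : E.eval x (0 : E) = 0 := by rw [eval_lit]; simp

end

end Crest.Agent.R307.PolyBox
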