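import Crest.Agent.R307.Frame

set_option autoImplicit false

namespace Crest.Agent.R307

open Real Set Crest.CubeNoise Crest.Agent.H28

/-! ### the induction principle with the least influential coordinate -/

theorem induct_small_split (N0 : ℕ) (P : (n : ℕ) → ((Fin n → Bool) → Bool) → Prop)
    (base : ∀ n ≤ N0, ∀ f : (Fin n → Bool) → Bool, P n f)
    (step : ∀ n, N0 ≤ n → ∀ (f : (Fin (n + 1) → Bool) → Bool) (i : Fin (n + 1)),
      (N0 + 1 : ℝ) * (meas (sect f i true) - meas (sect f i false)) ^ 2 ≤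
        4 * meas f * (1 - meas f) →
      P n (sect f i true) → P n (sect f i false) → P (n + 1) f) :
    ∀ n (f : (Fin n → Bool) → Bool), P n f := by
  intro n
  induction n with
  | zero => intro f; exact base 0 (Nat.zero_le _) f
  | succ n ih =>
    intro f
    by_cases h : n + 1 ≤ N0
    · exact base _ h f
    · obtain ⟨i, hi⟩ := exists_small_split f
      refine step n (by omega) f i (le_trans ?_ hi) (ih _) (ih _)
      have : (N0 + 1 : ℝ) ≤ (n + 1 : ℝ) := by
        have : N0 ≤ n := by omega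
        have : (N0 : ℝ) ≤ n := by exact_mod_cast this
        linarith
      exact mul_le_mul_of_nonneg_right this (sq_nonneg _)

/-! ### relation with the statement -/

lemma spin_eq_ind {n : ℕ} (f : (Fin n → Bool) → Bool) (x : Fin n → Bool) :
    spin (f x) = 2 * ind f x + (-1) := by
  unfold spin ind; split_ifs <;> norm_num

lemma noise_spin {n : ℕ} (ρ : ℝ) (f : (Fin n → Bool) → Bool) (x : Fin n → Bool) :
    noise ρ (fun y => spin (f y)) x = 2 * UU ρ f x - 1 := by
  unfold UU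
  simp only [noise_eq, spin_eq_ind, mul_add, Finset.sum_add_distrib]
  have h1 : ∑ y, ker ρ x y * (-1) = -1 := by
    rw [← Finset.sum_mul, ker_sum]; norm_num
  have h2 : ∑ y, ker ρ x y * (2 * ind f y) = 2 * ∑ y, ker ρ x y * ind f y := by
    rw [Finset.mul_sum]; apply Finset.sum_congr rfl; intro y _; ring
  rw [h1, h2]; ring

lemma cubeAverage_spin_f {n : ℕ} (f : (Fin n → Bool) → Bool) :
    cubeAverage (fun x => spin (f x)) = 2 * meas f - 1 := by
  unfold meas
  simp only [spin_eq_ind]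
  rw [cubeAverage_add, cubeAverage_mul_left, cubeAverage_const]; ring

/-- the functional `σ(u) = 2 √(u (1 - u))` -/
noncomputable def sig (u : ℝ) : ℝ := √(1 - (2 * u - 1) ^ 2)

lemma sig_eq (u : ℝ) : sig u = 2 * √(u * (1 - u)) := by
  unfold sig
  rw [show 1 - (2 * u - 1) ^ 2 = 2 ^ 2 * (u * (1 - u)) by ring, Real.sqrt_mul (by positivity),
    Real.sqrt_sq (by norm_num)]

lemma sig_symm (u : ℝ) : sig (1 - u) = sig u := by
  unfold sig; congr 1; ring

/-- the target in terms of `meas` and `EE` -/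
def Target (ρ : ℝ) : Prop := ∀ (n : ℕ) (f : (Fin n → Bool) → Bool),
  sig (meas f) - 1 + √(1 - ρ ^ 2) ≤ EE ρ sig f

lemma UU_neg {n : ℕ} (ρ : ℝ) (f : (Fin n → Bool) → Bool) (x : Fin n → Bool) :
    UU (-ρ) f x = UU ρ f (fun i => !(x i)) := by
  unfold UU
  simp only [noise_eq]
  apply Finset.sum_congr rfl
  intro y _
  congr 1
  unfold ker
  apply Finset.prod_congr rfl
  intro i _
  rw [spin_not]; ring

lemma cubeAverage_flip {n : ℕ} (g : (Fin n → Bool) → ℝ) :
    cubeAverage (fun x => g (fun i => !(x i))) = cubeAverage g := by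
  unfold cubeAverage
  congr 1
  refine Fintype.sum_equiv
    (⟨fun x i => !(x i), fun x i => !(x i), fun x => by funext i; simp, fun x => by funext i; simp⟩ :
      (Fin n → Bool) ≃ (Fin n → Bool)) _ _ (fun x => rfl)

lemma EE_neg {n : ℕ} (ρ : ℝ) (φ : ℝ → ℝ) (f : (Fin n → Bool) → Bool) :
    EE (-ρ) φ f = EE ρ φ f := by
  unfold EE
  simp only [UU_neg]
  exact cubeAverage_flip (fun x => φ (UU ρ f x))

lemma sig_nonneg (u : ℝ) : 0 ≤ sig u := Real.sqrt_nonneg _

lemma sig_le_one (u : ℝ) : sig u ≤ 1 := by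
  unfold sig
  rw [Real.sqrt_le_one]
  nlinarith [sq_nonneg (2 * u - 1)]

lemma target_one : Target 1 := by
  intro n f
  have h1 : 0 ≤ EE 1 sig f := by
    unfold EE
    have := cubeAverage_mono (n := n) (f := fun _ => (0:ℝ)) (g := fun x => sig (UU 1 f x))
      (fun x => sig_nonneg _)
    rwa [cubeAverage_const] at this
  have h2 := sig_le_one (meas f)
  have h3 : √(1 - (1:ℝ) ^ 2) = 0 := by norm_num
  rw [h3]; linarith

theorem final_of_target (h : ∀ ρ : ℝ, 0 ≤ ρ → ρ < 1 → Target ρ) (n : ℕ)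
    (f : (Fin n → Bool) → Bool) (ρ : ℝ) (hρ : |ρ| ≤ 1) :
    Real.sqrt (1 - (cubeAverage (fun x => spin (f x))) ^ 2)
        - cubeAverage (fun x => Real.sqrt (1 - (noise ρ (fun y => spin (f y)) x) ^ 2))
      ≤ 1 - Real.sqrt (1 - ρ ^ 2) := by
  have key : sig (meas f) - 1 + √(1 - ρ ^ 2) ≤ EE ρ sig f := by
    have hall : ∀ r : ℝ, 0 ≤ r → r ≤ 1 → Target r := by
      intro r h0 h1
      rcases lt_or_eq_of_le h1 with h2 | h2
      · exact h r h0 h2
      · rw [h2]; exact target_one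
    rcases le_total 0 ρ with h0 | h0
    · exact hall ρ h0 (abs_le.1 hρ).2 n f
    · have := hall (-ρ) (by linarith) (by linarith [(abs_le.1 hρ).1]) n f
      rw [EE_neg] at this
      rwa [neg_sq] at this
  have e1 : Real.sqrt (1 - (cubeAverage (fun x => spin (f x))) ^ 2) = sig (meas f) := by
    rw [cubeAverage_spin_f]; rfl
  have e2 : cubeAverage (fun x => Real.sqrt (1 - (noise ρ (fun y => spin (f y)) x) ^ 2)) =
      EE ρ sig f := by
    unfold EE sig
    congr 1
    funext x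
    rw [noise_spin]
  rw [e1, e2]; linarith

/-- complement -/
def compl {n : ℕ} (f : (Fin n → Bool) → Bool) : (Fin n → Bool) → Bool := fun x => !(f x)

lemma ind_compl {n : ℕ} (f : (Fin n → Bool) → Bool) (x : Fin n → Bool) :
    ind (compl f) x = (-1) * ind f x + 1 := by
  unfold ind compl; cases f x <;> simp

lemma meas_compl {n : ℕ} (f : (Fin n → Bool) → Bool) : meas (compl f) = 1 - meas f := by
  unfold meas
  rw [show ind (compl f) = fun x => (-1) * ind f x + 1 from funext (ind_compl f),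
    cubeAverage_add, cubeAverage_mul_left, cubeAverage_const]; ring

lemma UU_compl {n : ℕ} (ρ : ℝ) (f : (Fin n → Bool) → Bool) (x : Fin n → Bool) :
    UU ρ (compl f) x = 1 - UU ρ f x := by
  unfold UU
  simp only [noise_eq, ind_compl, mul_add, Finset.sum_add_distrib, mul_one]
  rw [ker_sum]
  have h2 : ∑ y, ker ρ x y * (-1 * ind f y) = - ∑ y, ker ρ x y * ind f y := by
    rw [← Finset.sum_neg_distrib]; apply Finset.sum_congr rfl; intro y _; ring
  rw [h2]; ring

lemma EE_compl {n : ℕ} (ρ : ℝ) (φ : ℝ → ℝ) (f : (Fin n → Bool) → Bool) :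
    EE ρ φ (compl f) = EE ρ (fun u => φ (1 - u)) f := by
  unfold EE; simp only [UU_compl]

/-- additive one-sided functional -/
theorem target_of_additive {ρ : ℝ} (hρ : |ρ| ≤ 1) (φ : ℝ → ℝ)
    (hφ : ∀ u : ℝ, 0 ≤ u → u ≤ 1 → φ u + φ (1 - u) ≤ sig u) (b : ℝ → ℝ)
    (hb : ∀ u : ℝ, 0 ≤ u → u ≤ 1 → sig u - 1 + √(1 - ρ ^ 2) ≤ b u + b (1 - u))
    (h : ∀ (n : ℕ) (f : (Fin n → Bool) → Bool), b (meas f) ≤ EE ρ φ f) : Target ρ := by
  intro n f
  have h1 := h n f
  have h2 := h n (compl f)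
  rw [meas_compl, EE_compl] at h2
  have h3 := hb (meas f) (meas_nonneg f) (meas_le_one f)
  have h4 : EE ρ φ f + EE ρ (fun u => φ (1 - u)) f ≤ EE ρ sig f := by
    unfold EE
    rw [← cubeAverage_add]
    exact cubeAverage_mono fun x => hφ _ (UU_nonneg hρ f x) (UU_le_one hρ f x)
  linarith

lemma cubeAverage_sq_le {n : ℕ} (g : (Fin n → Bool) → ℝ) :
    cubeAverage g ^ 2 ≤ cubeAverage (fun x => g x ^ 2) := by
  set m := cubeAverage g with hm
  have h := cubeAverage_mono (n := n) (f := fun x => (2 * m) * g x + (-m ^ 2))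
    (g := fun x => g x ^ 2) (fun x => by nlinarith [sq_nonneg (g x - m)])
  rw [cubeAverage_add, cubeAverage_mul_left, cubeAverage_const, ← hm] at h
  nlinarith [h]

/-- square root one-sided functional -/
theorem target_of_sqrt {ρ : ℝ} (hρ : |ρ| ≤ 1) (r : ℝ → ℝ) (hr0 : ∀ u, 0 ≤ u → u ≤ 1 → 0 ≤ r u)
    (hb : ∀ u : ℝ, 0 ≤ u → u ≤ 1 → sig u + √(1 - ρ ^ 2) ≤ (r u + r (1 - u)) ^ 2)
    (h : ∀ (n : ℕ) (f : (Fin n → Bool) → Bool), r (meas f) ≤ EE ρ Real.sqrt f) : Target ρ := by
  intro n f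
  have h1 := h n f
  have h2 := h n (compl f)
  rw [meas_compl, EE_compl] at h2
  have h3 := hb (meas f) (meas_nonneg f) (meas_le_one f)
  have h4 : (EE ρ Real.sqrt f + EE ρ (fun u => √(1 - u)) f) ^ 2 ≤ EE ρ sig f + 1 := by
    unfold EE
    rw [← cubeAverage_add]
    refine le_trans (cubeAverage_sq_le _) ?_
    have e : cubeAverage (fun x => sig (UU ρ f x)) + 1 = cubeAverage (fun x => sig (UU ρ f x) + 1) := by
      rw [cubeAverage_add, cubeAverage_const]
    rw [e]
    apply cubeAverage_mono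
    intro x
    have u0 := UU_nonneg hρ f x
    have u1 := UU_le_one hρ f x
    rw [sig_eq, Real.sqrt_mul u0]
    have s1 := Real.sq_sqrt u0
    have s2 := Real.sq_sqrt (by linarith : (0:ℝ) ≤ 1 - UU ρ f x)
    nlinarith
  have h5 : (r (meas f) + r (1 - meas f)) ^ 2 ≤
      (EE ρ Real.sqrt f + EE ρ (fun u => √(1 - u)) f) ^ 2 := by
    apply pow_le_pow_left₀
    · exact add_nonneg (hr0 _ (meas_nonneg f) (meas_le_one f))
        (hr0 _ (by linarith [meas_le_one f]) (by linarith [meas_nonneg f]))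
    · linarith
  linarith

end Crest.Agent.R307
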